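import Vale.Agent.P238.Defs

/-!
# P238 (second theorem): the recursive construction
-/

namespace Vale.Agent.P238.X

open Finset

/-- the action `τ` on the next level -/
def tau' {X : Type} (τ : ZMod 3 → X → X) (s : ZMod 3) (x : X × X × X) : X × X × X :=
  (x.1, τ s x.2.1, τ (2 * s) x.2.2)

/-- the diagonal action on triples -/
def kap {X : Type} (τ : ZMod 3 → X → X) (s : ZMod 3) (x : X × X × X) : X × X × X :=
  (τ s x.1, τ s x.2.1, τ s x.2.2)

/-- three words with separators between them -/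
def core (k h : ℕ) (u v w : List ℕ) : List ℕ :=
  u ++ (List.replicate h (3 + 3 * k) ++ (v ++ (List.replicate h (4 + 3 * k) ++ w)))

/-- a word between two separators -/
def blk (h s : ℕ) (u : List ℕ) : List ℕ := List.replicate h s ++ (u ++ List.replicate h s)

/-- one group -/
def grp (k h : ℕ) (u v w : List ℕ) : List ℕ := blk h (5 + 3 * k) (core k h u v w)

/-- the word map of the next level; `r` is the number of repetitions -/
def nw {X : Type} (r k : ℕ) (τ : ZMod 3 → X → X) (w : X → List ℕ) (x : X × X × X) : List ℕ :=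
  (List.range (3 * r)).flatMap (fun j : ℕ =>
    grp k (2 * (33 * r) ^ k) (w (τ (j : ZMod 3) x.1)) (w (τ (j : ZMod 3) x.2.1))
      (w (τ (j : ZMod 3) x.2.2)))

/-- the cost bound -/
noncomputable def beta (r : ℕ) : ℕ → ℝ
  | 0 => 1
  | k + 1 => 9 * r / 2 * beta r k + 11 * (33 * r) ^ k

/-- one level of the construction -/
structure Lev (r k : ℕ) where
  /-- configurations -/
  X : Type
  /-- index set of the cheap moves -/
  ι : Type
  fX : Fintype X
  nX : Nonempty X
  fι : Fintype ι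
  /-- the action of `ℤ/3` -/
  τ : ZMod 3 → X → X
  /-- words -/
  w : X → List ℕ
  /-- weights of the cheap moves -/
  c : ι → ℝ
  /-- first point of a cheap move -/
  u : ι → X
  /-- second point of a cheap move -/
  v : ι → X
  τ_zero : ∀ x, τ 0 x = x
  τ_add : ∀ s t x, τ s (τ t x) = τ (s + t) x
  length_w : ∀ x, (w x).length = (33 * r) ^ k
  lt_w : ∀ x, ∀ a ∈ w x, a < 3 + 3 * k
  far : ∀ x s, s ≠ 0 → (6 * r) ^ k ≤ ED (w x) (w (τ s x))
  c_nonneg : ∀ i, 0 ≤ c i
  poin : ∀ g : X → ℝ, (∑ x, ∑ s, (g x - g (τ s x)) ^ 2) / (3 * Fintype.card X) ≤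
    ∑ i, c i * (g (u i) - g (v i)) ^ 2
  cost : ∀ (D : X → X → ℝ) (α : ℝ), 0 ≤ α →
    (∀ x y (e : ℕ), (∀ s, ED (w (τ s x)) (w (τ s y)) ≤ e) → D x y ≤ α * e) →
    ∑ i, c i * D (u i) (v i) ≤ α * beta r k

end Vale.Agent.P238.X
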