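import Vale.Agent.P238.X.EDBasic

/-!
# P238: the cheap moves at the next level
-/

namespace Vale.Agent.P238.X

theorem ED_flatMap_45 {f g : ℕ → List ℕ} {e : ℕ} (h : ∀ j, ED (f j) (g j) ≤ e) (l : List ℕ) :
    ED (l.flatMap f) (l.flatMap g) ≤ l.length * e := by
  induction l with
  | nil =>
    rw [List.flatMap_nil, List.flatMap_nil, ED_refl]
    exact Nat.zero_le _
  | cons a l ih =>
    rw [List.flatMap_cons, List.flatMap_cons, List.length_cons]
    refine (ED_append_le _ _ _ _).trans ?_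
    have := h a
    rw [add_mul, one_mul]
    omega

theorem ED_app_left_45 (p x y : List ℕ) : ED (p ++ x) (p ++ y) ≤ ED x y := by
  refine (ED_append_le _ _ _ _).trans ?_
  rw [ED_refl, zero_add]

theorem ED_app_right_45 (x y p : List ℕ) : ED (x ++ p) (y ++ p) ≤ ED x y := by
  refine (ED_append_le _ _ _ _).trans ?_
  rw [ED_refl, add_zero]

theorem ED_grp_45 (k h : ℕ) (u u' v v' w w' : List ℕ) :
    ED (grp k h u v w) (grp k h u' v' w') ≤ ED u u' + ED v v' + ED w w' := by
  unfold grp blk core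
  refine (ED_app_left_45 _ _ _).trans ((ED_app_right_45 _ _ _).trans ?_)
  refine (ED_append_le _ _ _ _).trans ?_
  have h1 : ED (List.replicate h (3 + 3 * k) ++ (v ++ (List.replicate h (4 + 3 * k) ++ w)))
      (List.replicate h (3 + 3 * k) ++ (v' ++ (List.replicate h (4 + 3 * k) ++ w'))) ≤
      ED v v' + ED w w' := by
    refine (ED_app_left_45 _ _ _).trans ((ED_append_le _ _ _ _).trans ?_)
    have := ED_app_left_45 (List.replicate h (4 + 3 * k)) w w'
    omega
  omega

/-- changing the first component -/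
theorem close_fst {X : Type} {r k : ℕ} {τ : ZMod 3 → X → X} {w : X → List ℕ}
    (τ_add : ∀ s t x, τ s (τ t x) = τ (s + t) x) {y z : X} {e : ℕ}
    (h : ∀ s, ED (w (τ s y)) (w (τ s z)) ≤ e) (b c : X) (s : ZMod 3) :
    ED (nw r k τ w (tau' τ s (y, b, c))) (nw r k τ w (tau' τ s (z, b, c))) ≤ 3 * r * e := by
  unfold nw tau'
  have := ED_flatMap_45 (e := e) (f := fun j : ℕ =>
    grp k (2 * (33 * r) ^ k) (w (τ (j : ZMod 3) y)) (w (τ (j : ZMod 3) (τ s b)))
      (w (τ (j : ZMod 3) (τ (2 * s) c)))) (g := fun j : ℕ =>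
    grp k (2 * (33 * r) ^ k) (w (τ (j : ZMod 3) z)) (w (τ (j : ZMod 3) (τ s b)))
      (w (τ (j : ZMod 3) (τ (2 * s) c)))) (by
      intro j
      refine (ED_grp_45 _ _ _ _ _ _ _ _).trans ?_
      rw [ED_refl, ED_refl, add_zero, add_zero]
      exact h _) (List.range (3 * r))
  rw [List.length_range] at this
  exact this

/-- changing the second component -/
theorem close_snd {X : Type} {r k : ℕ} {τ : ZMod 3 → X → X} {w : X → List ℕ}
    (τ_add : ∀ s t x, τ s (τ t x) = τ (s + t) x) {y z : X} {e : ℕ}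
    (h : ∀ s, ED (w (τ s y)) (w (τ s z)) ≤ e) (a c : X) (s : ZMod 3) :
    ED (nw r k τ w (tau' τ s (a, y, c))) (nw r k τ w (tau' τ s (a, z, c))) ≤ 3 * r * e := by
  unfold nw tau'
  have := ED_flatMap_45 (e := e) (f := fun j : ℕ =>
    grp k (2 * (33 * r) ^ k) (w (τ (j : ZMod 3) a)) (w (τ (j : ZMod 3) (τ s y)))
      (w (τ (j : ZMod 3) (τ (2 * s) c)))) (g := fun j : ℕ =>
    grp k (2 * (33 * r) ^ k) (w (τ (j : ZMod 3) a)) (w (τ (j : ZMod 3) (τ s z)))
      (w (τ (j : ZMod 3) (τ (2 * s) c)))) (by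
      intro j
      refine (ED_grp_45 _ _ _ _ _ _ _ _).trans ?_
      rw [ED_refl, ED_refl, add_zero, zero_add, τ_add, τ_add]
      exact h _) (List.range (3 * r))
  rw [List.length_range] at this
  exact this

/-- changing the third component -/
theorem close_trd {X : Type} {r k : ℕ} {τ : ZMod 3 → X → X} {w : X → List ℕ}
    (τ_add : ∀ s t x, τ s (τ t x) = τ (s + t) x) {y z : X} {e : ℕ}
    (h : ∀ s, ED (w (τ s y)) (w (τ s z)) ≤ e) (a b : X) (s : ZMod 3) :
    ED (nw r k τ w (tau' τ s (a, b, y))) (nw r k τ w (tau' τ s (a, b, z))) ≤ 3 * r * e := by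
  unfold nw tau'
  have := ED_flatMap_45 (e := e) (f := fun j : ℕ =>
    grp k (2 * (33 * r) ^ k) (w (τ (j : ZMod 3) a)) (w (τ (j : ZMod 3) (τ s b)))
      (w (τ (j : ZMod 3) (τ (2 * s) y)))) (g := fun j : ℕ =>
    grp k (2 * (33 * r) ^ k) (w (τ (j : ZMod 3) a)) (w (τ (j : ZMod 3) (τ s b)))
      (w (τ (j : ZMod 3) (τ (2 * s) z)))) (by
      intro j
      refine (ED_grp_45 _ _ _ _ _ _ _ _).trans ?_
      rw [ED_refl, ED_refl, zero_add, zero_add, τ_add, τ_add]
      exact h _) (List.range (3 * r))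
  rw [List.length_range] at this
  exact this

theorem length_grp_45 {k h b : ℕ} {u v w : List ℕ} (hu : u.length = b) (hv : v.length = b)
    (hw : w.length = b) : (grp k h u v w).length = 4 * h + 3 * b := by
  unfold grp blk core
  simp only [List.length_append, List.length_replicate]
  omega

/-- moving one end group to the other end -/
theorem ED_rot_45 {g g' m : List ℕ} {b : ℕ} (hg : g.length = b) (hg' : g'.length = b) :
    ED (g ++ m) (m ++ g') ≤ 2 * b := by
  have h1 : ED (g ++ m) m ≤ b := by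
    rw [ED_comm]
    have := ED_insert_le m g m []
    rw [List.append_nil, ED_refl, List.length_nil, hg] at this
    omega
  have h2 : ED m (m ++ g') ≤ b := by
    have := ED_insert_le m [] m g'
    rw [List.nil_append, ED_refl, List.length_nil, hg'] at this
    omega
  have h3 := ED_triangle (g ++ m) m (m ++ g')
  omega

theorem rotate_45 (G : ZMod 3 → List ℕ) {b : ℕ} (hG : ∀ i, (G i).length = b) (n : ℕ)
    (s : ZMod 3) : ED ((List.range (n + 1)).flatMap (fun j : ℕ => G (j : ZMod 3)))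
      ((List.range (n + 1)).flatMap (fun j : ℕ => G ((j : ZMod 3) + s))) ≤ 2 * b := by
  have hs : s = 0 ∨ s = 1 ∨ s = 2 := by
    revert s
    decide
  have first : ∀ f : ℕ → List ℕ, (List.range (n + 1)).flatMap f =
      f 0 ++ (List.range n).flatMap (fun j => f (j + 1)) := by
    intro f
    rw [List.range_succ_eq_map, List.flatMap_cons, List.flatMap_map]
  have last : ∀ f : ℕ → List ℕ, (List.range (n + 1)).flatMap f =
      (List.range n).flatMap f ++ f n := by
    intro f
    rw [List.range_succ, List.flatMap_append, List.flatMap_singleton]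
  rcases hs with h | h | h
  · subst h
    simp only [add_zero]
    rw [ED_refl]
    exact Nat.zero_le _
  · subst h
    rw [first (fun j : ℕ => G (j : ZMod 3)), last (fun j : ℕ => G ((j : ZMod 3) + 1))]
    have e : (fun j : ℕ => G ((j + 1 : ℕ) : ZMod 3)) = fun j : ℕ => G ((j : ZMod 3) + 1) := by
      funext j
      push_cast
      rfl
    rw [e]
    exact ED_rot_45 (hG _) (hG _)
  · subst h
    rw [last (fun j : ℕ => G (j : ZMod 3)), first (fun j : ℕ => G ((j : ZMod 3) + 2))]
    have e : (fun j : ℕ => G (((j + 1 : ℕ) : ZMod 3) + 2)) = fun j : ℕ => G (j : ZMod 3) := by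
      funext j
      congr 1
      push_cast
      have h3 : (3 : ZMod 3) = 0 := by decide
      have : (j : ZMod 3) + 1 + 2 = (j : ZMod 3) + 3 := by ring
      rw [this, h3, add_zero]
    rw [e, ED_comm]
    exact ED_rot_45 (hG _) (hG _)

/-- the diagonal action is a rotation by groups -/
theorem close_kap {X : Type} {r k : ℕ} (hr : 1 ≤ r) {τ : ZMod 3 → X → X} {w : X → List ℕ}
    (τ_zero : ∀ x, τ 0 x = x) (τ_add : ∀ s t x, τ s (τ t x) = τ (s + t) x)
    (length_w : ∀ x, (w x).length = (33 * r) ^ k) (x : X × X × X) (s t : ZMod 3) :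
    ED (nw r k τ w (tau' τ t x)) (nw r k τ w (tau' τ t (kap τ s x))) ≤ 22 * (33 * r) ^ k := by
  obtain ⟨n, hn⟩ : ∃ n, 3 * r = n + 1 := ⟨3 * r - 1, by omega⟩
  have key := rotate_45 (fun i : ZMod 3 => grp k (2 * (33 * r) ^ k) (w (τ i x.1))
    (w (τ i (τ t x.2.1))) (w (τ i (τ (2 * t) x.2.2)))) (b := 11 * (33 * r) ^ k) (by
      intro i
      rw [length_grp_45 (length_w _) (length_w _) (length_w _)]
      ring) n s
  have e : nw r k τ w (tau' τ t (kap τ s x)) =
      (List.range (n + 1)).flatMap (fun j : ℕ => grp k (2 * (33 * r) ^ k)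
        (w (τ ((j : ZMod 3) + s) x.1)) (w (τ ((j : ZMod 3) + s) (τ t x.2.1)))
        (w (τ ((j : ZMod 3) + s) (τ (2 * t) x.2.2)))) := by
    unfold nw tau' kap
    rw [hn]
    congr 1
    funext j
    simp only [τ_add]
    have e1 : (j : ZMod 3) + (t + s) = (j : ZMod 3) + s + t := by ring
    have e2 : (j : ZMod 3) + (2 * t + s) = (j : ZMod 3) + s + 2 * t := by ring
    rw [e1, e2]
  rw [e]
  unfold nw tau'
  rw [hn]
  refine key.trans (le_of_eq ?_)
  ring

end Vale.Agent.P238.X
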