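import Vale.Agent.P238.X.Base
import Vale.Agent.P238.EditH40

/-!
# P238: elementary facts on the edit distance (all from the alignments of `EditH40`)
-/

namespace Vale.Agent.P238.X

theorem ED_split {α : Type*} (x y z : List α) :
    ∃ z1 z2, z = z1 ++ z2 ∧ ED x z1 + ED y z2 ≤ ED (x ++ y) z := by
  obtain ⟨z1, z2, e1, e2, h1, h2, h3, h4⟩ := (al_ED (x ++ y) z).split x y rfl
  refine ⟨z1, z2, h1, ?_⟩
  have h5 := ED_le_of_al h3
  have h6 := ED_le_of_al h4
  omega

theorem ED_append_le {α : Type*} (x x' y y' : List α) :
    ED (x ++ x') (y ++ y') ≤ ED x y + ED x' y' :=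
  ED_le_of_al ((al_ED x y).append (al_ED x' y'))

theorem ED_triangle {α : Type*} (x y z : List α) : ED x z ≤ ED x y + ED y z :=
  ED_le_of_al ((al_ED x y).trans (al_ED y z))

theorem ED_comm {α : Type*} (x y : List α) : ED x y = ED y x :=
  le_antisymm (ED_le_of_al (al_ED y x).symm) (ED_le_of_al (al_ED x y).symm)

theorem ED_refl {α : Type*} (x : List α) : ED x x = 0 :=
  Nat.le_zero.mp (ED_le_of_al (Al.refl 0 x))

theorem ED_nil_right {α : Type*} (x : List α) : ED x [] = x.length := by
  refine le_antisymm (ED_le_of_al (Al.nil_right x)) ?_
  have h := (al_ED x []).length_le.1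
  rwa [List.length_nil, zero_add] at h

theorem ED_nil_left {α : Type*} (x : List α) : ED [] x = x.length := by
  rw [ED_comm, ED_nil_right]

theorem length_le_ED {α : Type*} (x y : List α) :
    x.length ≤ y.length + ED x y ∧ y.length ≤ x.length + ED x y :=
  (al_ED x y).length_le

theorem Al_filter_length {α : Type*} {e : ℕ} {x z : List α} (h : Al e x z) (p : α → Bool) :
    (x.filter p).length ≤ (z.filter p).length + e := by
  induction h with
  | nil e => simp
  | @mat e x y a _ ih =>
    rw [List.filter_cons, List.filter_cons]
    split_ifs <;> try simp only [List.length_cons]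
    all_goals omega
  | @sub e x y a b _ ih =>
    rw [List.filter_cons, List.filter_cons]
    split_ifs <;> try simp only [List.length_cons]
    all_goals omega
  | @del e x y a _ ih =>
    rw [List.filter_cons]
    split_ifs <;> try simp only [List.length_cons]
    all_goals omega
  | @ins e x y b _ ih =>
    rw [List.filter_cons]
    split_ifs <;> try simp only [List.length_cons]
    all_goals omega

/-- unmatched copies of the letter `s` -/
theorem ED_replicate_count (h s : ℕ) (z : List ℕ) :
    h ≤ z.count s + ED (List.replicate h s) z := by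
  have h1 := Al_filter_length (al_ED (List.replicate h s) z) (fun a => a == s)
  rw [List.count_eq_length_filter]
  have h2 : ((List.replicate h s).filter (fun a => a == s)).length = h := by
    simp
  rw [h2] at h1
  exact h1

/-- unmatched other letters -/
theorem ED_replicate_ne (h s : ℕ) (z : List ℕ) :
    (z.filter (fun a => a ≠ s)).length ≤ ED (List.replicate h s) z := by
  have h1 := Al_filter_length (al_ED (List.replicate h s) z).symm (fun a => decide (a ≠ s))
  have h2 : ((List.replicate h s).filter (fun a => decide (a ≠ s))).length = 0 := by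
    simp
  rw [h2, zero_add] at h1
  exact h1

theorem Al_filter {s e : ℕ} {x z : List ℕ} (h : Al e x z) (hx : s ∉ x) :
    Al e x (z.filter (fun a => a ≠ s)) := by
  induction h with
  | nil e => exact Al.nil _
  | @mat e x y a _ ih =>
    rw [List.mem_cons, not_or] at hx
    rw [List.filter_cons, if_pos (by simpa using fun h => hx.1 h.symm)]
    exact Al.mat a (ih hx.2)
  | @sub e x y a b _ ih =>
    rw [List.mem_cons, not_or] at hx
    rw [List.filter_cons]
    split_ifs
    · exact Al.sub a b (ih hx.2)
    · exact Al.del a (ih hx.2)
  | @del e x y a _ ih =>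
    rw [List.mem_cons, not_or] at hx
    exact Al.del a (ih hx.2)
  | @ins e x y b _ ih =>
    rw [List.filter_cons]
    split_ifs
    · exact Al.ins b (ih hx)
    · exact (ih hx).mono (by omega)

/-- removing a letter that does not occur in the other word -/
theorem ED_filter_le {s : ℕ} {x : List ℕ} (hx : s ∉ x) (z : List ℕ) :
    ED x (z.filter (fun a => a ≠ s)) ≤ ED x z :=
  ED_le_of_al (Al_filter (al_ED x z) hx)

/-- inserting words at both ends -/
theorem ED_insert_le {α : Type*} (x p y q : List α) :
    ED x (p ++ (y ++ q)) ≤ p.length + ED x y + q.length := by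
  have h1 := ED_append_le ([] : List α) (x ++ []) p (y ++ q)
  have h2 := ED_append_le x [] y q
  rw [ED_nil_left] at h1 h2
  rw [List.nil_append, List.append_nil] at h1
  rw [List.append_nil] at h2
  omega

end Vale.Agent.P238.X
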