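import Vale.Agent.P238.X.EDBasic

/-!
# P238: binary encoding of words over `ℕ`
-/

namespace Vale.Agent.P238.X

/-- the letter `a` becomes `0^a 1` -/
def enc (x : List ℕ) : List Bool := x.flatMap (fun a => List.replicate a false ++ [true])

/-- decoding; `c` is the number of zeros already read -/
def dec : ℕ → List Bool → List ℕ
  | _, [] => []
  | c, false :: u => dec (c + 1) u
  | c, true :: u => c :: dec 0 u

/-- the encoded word, followed by zeros up to the length `n` -/
def pad (n : ℕ) (x : List ℕ) : List Bool := enc x ++ List.replicate (n - (enc x).length) false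

theorem dec_replicate_45 (a c : ℕ) (u : List Bool) :
    dec c (List.replicate a false ++ u) = dec (c + a) u := by
  induction a generalizing c with
  | zero => simp
  | succ a ih =>
    rw [List.replicate_succ, List.cons_append, dec, ih]
    congr 1
    omega

theorem dec_zeros_45 (a c : ℕ) : dec c (List.replicate a false) = [] := by
  have := dec_replicate_45 a c []
  rw [List.append_nil] at this
  rw [this, dec]

theorem enc_cons_45 (a : ℕ) (x : List ℕ) :
    enc (a :: x) = List.replicate a false ++ (true :: enc x) := by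
  simp [enc]

theorem dec_enc_45 (x : List ℕ) (u : List Bool) : dec 0 (enc x ++ u) = x ++ dec 0 u := by
  induction x with
  | nil => simp [enc]
  | cons a x ih =>
    rw [enc_cons_45, List.append_assoc, List.cons_append, dec_replicate_45, dec, zero_add, ih,
      List.cons_append]

theorem dec_pad (n : ℕ) (x : List ℕ) : dec 0 (pad n x) = x := by
  unfold pad
  rw [dec_enc_45, dec_zeros_45, List.append_nil]

theorem Al_dec_45 {e : ℕ} {u v : List Bool} (h : Al e u v) :
    ∀ c c' : ℕ, Al (2 * e + 1) (dec c u) (dec c' v) ∧ Al (2 * e) (dec c u) (dec c v) := by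
  induction h with
  | nil e =>
    intro c c'
    exact ⟨Al.nil _, Al.nil _⟩
  | @mat e u v a _ ih =>
    intro c c'
    cases a
    · exact ⟨(ih _ _).1, (ih _ 0).2⟩
    · refine ⟨?_, Al.mat _ (ih 0 0).2⟩
      exact Al.sub _ _ (ih 0 0).2
  | @sub e u v a b _ ih =>
    intro c c'
    have e1 : 2 * (e + 1) = (2 * e + 1) + 1 := by ring
    cases a <;> cases b
    · refine ⟨((ih (c + 1) (c' + 1)).1).mono (by omega), ((ih (c + 1) 0).2).mono (by omega)⟩
    · rw [e1]
      exact ⟨(Al.ins _ (ih (c + 1) 0).1).mono (by omega), Al.ins _ (ih (c + 1) 0).1⟩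
    · rw [e1]
      exact ⟨(Al.del _ (ih 0 (c' + 1)).1).mono (by omega), Al.del _ (ih 0 (c + 1)).1⟩
    · refine ⟨(Al.sub _ _ (ih 0 0).2).mono (by omega), (Al.mat _ (ih 0 0).2).mono (by omega)⟩
  | @del e u v a _ ih =>
    intro c c'
    have e1 : 2 * (e + 1) = (2 * e + 1) + 1 := by ring
    rw [e1]
    cases a
    · exact ⟨((ih (c + 1) c').1).mono (by omega), ((ih (c + 1) c).1).mono (by omega)⟩
    · exact ⟨(Al.del _ (ih 0 c').1).mono (by omega), Al.del _ (ih 0 c).1⟩
  | @ins e u v a _ ih =>
    intro c c'
    have e1 : 2 * (e + 1) = (2 * e + 1) + 1 := by ring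
    rw [e1]
    cases a
    · exact ⟨((ih c (c' + 1)).1).mono (by omega), ((ih c (c + 1)).1).mono (by omega)⟩
    · exact ⟨(Al.ins _ (ih c 0).1).mono (by omega), Al.ins _ (ih c 0).1⟩

theorem ED_dec (u v : List Bool) : ED (dec 0 u) (dec 0 v) ≤ 2 * ED u v :=
  ED_le_of_al (Al_dec_45 (al_ED u v) 0 0).2

theorem length_enc_le {L : ℕ} {x : List ℕ} (hx : ∀ a ∈ x, a < L) :
    (enc x).length ≤ L * x.length := by
  induction x with
  | nil => simp [enc]
  | cons a x ih =>
    have h1 := ih (fun b hb => hx b (List.mem_cons_of_mem _ hb))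
    have h2 := hx a List.mem_cons_self
    rw [enc_cons_45]
    simp only [List.length_append, List.length_replicate, List.length_cons]
    rw [mul_add, mul_one]
    omega

theorem length_pad {n : ℕ} {x : List ℕ} (h : (enc x).length ≤ n) : (pad n x).length = n := by
  unfold pad
  rw [List.length_append, List.length_replicate]
  omega

theorem Al_replicate_45 (a : Bool) : ∀ (m m' k : ℕ), m ≤ m' + k → m' ≤ m + k →
    Al k (List.replicate m a) (List.replicate m' a)
  | 0, 0, _, _, _ => Al.nil _
  | 0, m' + 1, k, _, h => by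
    obtain ⟨k, rfl⟩ : ∃ j, k = j + 1 := ⟨k - 1, by omega⟩
    exact Al.ins _ (Al_replicate_45 a 0 m' k (by omega) (by omega))
  | m + 1, 0, k, h, _ => by
    obtain ⟨k, rfl⟩ : ∃ j, k = j + 1 := ⟨k - 1, by omega⟩
    exact Al.del _ (Al_replicate_45 a m 0 k (by omega) (by omega))
  | m + 1, m' + 1, k, h, h' => Al.mat _ (Al_replicate_45 a m m' k (by omega) (by omega))

theorem Al_enc_45 {L e : ℕ} {x y : List ℕ} (h : Al e x y) (hx : ∀ a ∈ x, a < L)
    (hy : ∀ a ∈ y, a < L) : Al (L * e) (enc x) (enc y) := by
  induction h with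
  | nil e => exact Al.nil _
  | @mat e x y a _ ih =>
    rw [enc_cons_45, enc_cons_45]
    have := (Al.refl 0 (List.replicate a false)).append (Al.mat true
      (ih (fun b hb => hx b (List.mem_cons_of_mem _ hb))
        (fun b hb => hy b (List.mem_cons_of_mem _ hb))))
    rwa [zero_add] at this
  | @sub e x y a b _ ih =>
    rw [enc_cons_45, enc_cons_45]
    have h1 := hx a List.mem_cons_self
    have h2 := hy b List.mem_cons_self
    have := (Al_replicate_45 false a b L (by omega) (by omega)).append (Al.mat true
      (ih (fun b hb => hx b (List.mem_cons_of_mem _ hb))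
        (fun b hb => hy b (List.mem_cons_of_mem _ hb))))
    refine this.mono (le_of_eq ?_)
    ring
  | @del e x y a _ ih =>
    have h1 := hx a List.mem_cons_self
    have h3 := ih (fun b hb => hx b (List.mem_cons_of_mem _ hb)) hy
    have h4 : Al (a + 1) (List.replicate a false ++ [true]) [] := by
      have := Al.nil_right (List.replicate a false ++ [true])
      simpa using this
    have h5 := h4.append h3
    rw [List.append_assoc, List.singleton_append, List.nil_append, ← enc_cons_45] at h5
    refine h5.mono ?_
    rw [mul_add, mul_one]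
    omega
  | @ins e x y b _ ih =>
    have h1 := hy b List.mem_cons_self
    have h3 := ih hx (fun b hb => hy b (List.mem_cons_of_mem _ hb))
    have h4 : Al (b + 1) [] (List.replicate b false ++ [true]) := by
      have := (Al.nil_right (List.replicate b false ++ [true])).symm
      simpa using this
    have h5 := h4.append h3
    rw [List.append_assoc, List.singleton_append, List.nil_append, ← enc_cons_45] at h5
    refine h5.mono ?_
    rw [mul_add, mul_one]
    omega

theorem ED_pad_le {n L : ℕ} {x y : List ℕ} (hx : ∀ a ∈ x, a < L) (hy : ∀ a ∈ y, a < L)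
    (hxn : (enc x).length ≤ n) (hyn : (enc y).length ≤ n) :
    ED (pad n x) (pad n y) ≤ 2 * L * ED x y := by
  have h1 := Al_enc_45 (al_ED x y) hx hy
  have h2 := h1.length_le
  have h3 := Al_replicate_45 false (n - (enc x).length) (n - (enc y).length) (L * ED x y)
    (by omega) (by omega)
  have h4 := h1.append h3
  refine (ED_le_of_al h4).trans (le_of_eq ?_)
  ring

end Vale.Agent.P238.X
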