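import Vale.Agent.P238.X.EDBasic

/-!
# P238: sequences of blocks
-/

namespace Vale.Agent.P238.X

theorem rep_filter_eq {s : ℕ} {v : List ℕ} (hv : s ∉ v) : v.filter (fun a => a ≠ s) = v := by
  rw [List.filter_eq_self]
  intro a ha
  have : a ≠ s := fun h => hv (h ▸ ha)
  simpa using this

theorem rep_filter_nil {s : ℕ} {v : List ℕ} (hv : ∀ a ∈ v, a = s) :
    v.filter (fun a => a ≠ s) = [] := by
  rw [List.filter_eq_nil_iff]
  intro a ha
  simpa using hv a ha

theorem rep_filter_replicate (h s : ℕ) : (List.replicate h s).filter (fun a => a ≠ s) = [] :=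
  rep_filter_nil fun _ ha => List.eq_of_mem_replicate ha

theorem rep_filter_blk {h s : ℕ} {v : List ℕ} (hv : s ∉ v) :
    (blk h s v).filter (fun a => a ≠ s) = v := by
  unfold blk
  rw [List.filter_append, List.filter_append, rep_filter_replicate, rep_filter_eq hv,
    List.nil_append, List.append_nil]

/-- a part of one block which ends just before a separator -/
theorem rep_sub_blk {h s : ℕ} {v P R : List ℕ} (hv : s ∉ v) (heq : blk h s v = P ++ s :: R) :
    P.filter (fun a => a ≠ s) = [] ∨ P.filter (fun a => a ≠ s) = v := by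
  unfold blk at heq
  rcases List.append_eq_append_iff.1 heq with ⟨a', h1, h2⟩ | ⟨c', h1, h2⟩
  · right
    subst h1
    rcases List.append_eq_append_iff.1 h2 with ⟨a2, h3, h4⟩ | ⟨c2, h3, h4⟩
    · subst h3
      rw [List.filter_append, List.filter_append, rep_filter_replicate, rep_filter_eq hv]
      have h5 : a2.filter (fun a => a ≠ s) = [] := by
        apply rep_filter_nil
        intro a ha
        have : a ∈ List.replicate h s := by
          rw [h4]
          exact List.mem_append_left _ ha
        exact List.eq_of_mem_replicate this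
      rw [h5]
      simp
    · cases c2 with
      | nil =>
        rw [List.append_nil] at h3
        subst h3
        rw [List.filter_append, rep_filter_replicate, rep_filter_eq hv]
        simp
      | cons c c3 =>
        rw [List.cons_append, List.cons.injEq] at h4
        exfalso
        apply hv
        rw [h3, ← h4.1]
        simp
  · left
    apply rep_filter_nil
    intro a ha
    have : a ∈ List.replicate h s := by
      rw [h1]
      exact List.mem_append_left _ ha
    exact List.eq_of_mem_replicate this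

/-- a prefix ending just before a separator -/
theorem rep_prefix {h s : ℕ} (Vs : List (List ℕ)) (hV : ∀ v ∈ Vs, s ∉ v) {P C : List ℕ}
    (heq : Vs.flatMap (blk h s) = P ++ s :: C) :
    ∃ Ws : List (List ℕ), Ws <+: Vs ∧ P.filter (fun a => a ≠ s) = Ws.flatten := by
  induction Vs generalizing P with
  | nil =>
    simp at heq
  | cons v Vs ih =>
    have hv : s ∉ v := hV v (List.mem_cons_self)
    have hV' : ∀ v ∈ Vs, s ∉ v := fun w hw => hV w (List.mem_cons_of_mem _ hw)
    rw [List.flatMap_cons] at heq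
    rcases List.append_eq_append_iff.1 heq with ⟨a', h1, h2⟩ | ⟨c', h1, h2⟩
    · obtain ⟨Ws, hW1, hW2⟩ := ih hV' h2
      refine ⟨v :: Ws, (List.cons_prefix_cons).2 ⟨rfl, hW1⟩, ?_⟩
      rw [h1, List.filter_append, rep_filter_blk hv, hW2, List.flatten_cons]
    · cases c' with
      | nil =>
        rw [List.nil_append] at h2
        rw [List.append_nil] at h1
        obtain ⟨Ws, hW1, hW2⟩ := ih (P := []) hV' (by rw [List.nil_append]; exact h2.symm)
        refine ⟨v :: Ws, (List.cons_prefix_cons).2 ⟨rfl, hW1⟩, ?_⟩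
        rw [← h1, rep_filter_blk hv, List.flatten_cons, ← hW2]
        simp
      | cons c c2 =>
        rw [List.cons_append, List.cons.injEq] at h2
        rw [← h2.1] at h1
        rcases rep_sub_blk hv h1 with h3 | h3
        · exact ⟨[], List.nil_prefix, by rw [h3]; rfl⟩
        · refine ⟨[v], (List.cons_prefix_cons).2 ⟨rfl, List.nil_prefix⟩, ?_⟩
          rw [h3]
          simp

/-- the part between two separators is a concatenation of full blocks -/
theorem filter_infix {h s : ℕ} (Vs : List (List ℕ)) (hV : ∀ v ∈ Vs, s ∉ v) {A Q C : List ℕ}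
    (heq : Vs.flatMap (blk h s) = A ++ (s :: (Q ++ s :: C))) :
    ∃ Ws : List (List ℕ), (∀ v ∈ Ws, v ∈ Vs) ∧ Q.filter (fun a => a ≠ s) = Ws.flatten := by
  obtain ⟨W1, h1, h2⟩ := rep_prefix Vs hV heq
  have heq' : Vs.flatMap (blk h s) = (A ++ s :: Q) ++ s :: C := by
    rw [heq]
    simp
  obtain ⟨W2, h3, h4⟩ := rep_prefix Vs hV heq'
  have h5 : W1.flatten ++ Q.filter (fun a => a ≠ s) = W2.flatten := by
    rw [← h4, List.filter_append, h2, List.filter_cons_of_neg (by simp)]
  rcases List.prefix_or_prefix_of_prefix h1 h3 with ⟨X, hX⟩ | ⟨X, hX⟩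
  · refine ⟨X, ?_, ?_⟩
    · intro v hv
      apply h3.subset
      rw [← hX]
      exact List.mem_append_right _ hv
    · rw [← hX, List.flatten_append] at h5
      exact List.append_cancel_left h5
  · refine ⟨[], by simp, ?_⟩
    rw [← hX, List.flatten_append] at h5
    have h6 := congrArg List.length h5
    simp only [List.length_append] at h6
    have h7 : (Q.filter (fun a => a ≠ s)).length = 0 := by omega
    rw [List.flatten_nil]
    exact List.length_eq_zero_iff.1 h7

theorem rep_last {s : ℕ} {Z : List ℕ} (hs : s ∈ Z) : ∃ X P, Z = X ++ s :: P ∧ s ∉ P := by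
  induction Z with
  | nil => simp at hs
  | cons a Z ih =>
    by_cases h : s ∈ Z
    · obtain ⟨X, P, h1, h2⟩ := ih h
      exact ⟨a :: X, P, by rw [h1, List.cons_append], h2⟩
    · rcases List.mem_cons.1 hs with h1 | h1
      · exact ⟨[], Z, by rw [h1, List.nil_append], h⟩
      · exact absurd h1 h

theorem rep_first {s : ℕ} {Z : List ℕ} (hs : s ∈ Z) : ∃ S X, Z = S ++ s :: X ∧ s ∉ S := by
  induction Z with
  | nil => simp at hs
  | cons a Z ih =>
    by_cases h : a = s
    · exact ⟨[], Z, by rw [h, List.nil_append], by simp⟩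
    · rcases List.mem_cons.1 hs with h1 | h1
      · exact absurd h1.symm h
      · obtain ⟨S, X, h2, h3⟩ := ih h1
        refine ⟨a :: S, X, by rw [h2, List.cons_append], ?_⟩
        intro h4
        rcases List.mem_cons.1 h4 with h5 | h5
        · exact h h5.symm
        · exact h3 h5

/-- one block against any part of a sequence of blocks -/
theorem ED_blk_infix {h s b δ : ℕ} {u : List ℕ} {Vs : List (List ℕ)} (hh : δ ≤ h) (hb : δ ≤ b)
    (hu : s ∉ u) (hub : u.length = b) (hV : ∀ v ∈ Vs, s ∉ v) (hVb : ∀ v ∈ Vs, v.length = b)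
    (hd : ∀ v ∈ Vs, δ ≤ ED u v) {A Z C : List ℕ} (hZ : Vs.flatMap (blk h s) = A ++ (Z ++ C)) :
    δ ≤ ED (blk h s u) Z := by
  by_contra hcon
  push Not at hcon
  obtain ⟨Z1, Z', hZ1, hc1⟩ := ED_split (List.replicate h s) (u ++ List.replicate h s) Z
  obtain ⟨Y, Z2, hZ2, hc2⟩ := ED_split u (List.replicate h s) Z'
  have htot : ED (List.replicate h s) Z1 + ED u Y + ED (List.replicate h s) Z2 < δ := by
    have : ED (blk h s u) Z = ED (List.replicate h s ++ (u ++ List.replicate h s)) Z := rfl
    omega
  have hs1 : s ∈ Z1 := by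
    have h1 := ED_replicate_count h s Z1
    have h2 : 0 < Z1.count s := by omega
    exact List.count_pos_iff.1 h2
  have hs2 : s ∈ Z2 := by
    have h1 := ED_replicate_count h s Z2
    have h2 : 0 < Z2.count s := by omega
    exact List.count_pos_iff.1 h2
  obtain ⟨X1, P, hP1, hP2⟩ := rep_last hs1
  obtain ⟨S, X2, hS1, hS2⟩ := rep_first hs2
  have hPlen : P.length ≤ ED (List.replicate h s) Z1 := by
    refine le_trans ?_ (ED_replicate_ne h s Z1)
    rw [hP1, List.filter_append, List.filter_cons_of_neg (by simp), rep_filter_eq hP2,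
      List.length_append]
    omega
  have hSlen : S.length ≤ ED (List.replicate h s) Z2 := by
    refine le_trans ?_ (ED_replicate_ne h s Z2)
    rw [hS1, List.filter_append, rep_filter_eq hS2, List.length_append]
    omega
  have heq : Vs.flatMap (blk h s) =
      (A ++ X1) ++ (s :: ((P ++ (Y ++ S)) ++ s :: (X2 ++ C))) := by
    rw [hZ, hZ1, hZ2, hP1, hS1]
    simp
  obtain ⟨Ws, hW1, hW2⟩ := filter_infix Vs hV heq
  have h1 : ED u (P ++ (Y ++ S)) < δ := by
    have := ED_insert_le u P Y S
    omega
  have h2 : ED u Ws.flatten < δ := by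
    rw [← hW2]
    exact (ED_filter_le hu _).trans_lt h1
  rcases Ws with _ | ⟨v, _ | ⟨v', Ws⟩⟩
  · rw [List.flatten_nil, ED_nil_right, hub] at h2
    omega
  · rw [List.flatten_cons, List.flatten_nil, List.append_nil] at h2
    have := hd v (hW1 v List.mem_cons_self)
    omega
  · have h3 := (length_le_ED u (v :: v' :: Ws).flatten).2
    rw [List.flatten_cons, List.flatten_cons, List.length_append, List.length_append,
      hVb v (hW1 v List.mem_cons_self),
      hVb v' (hW1 v' (List.mem_cons_of_mem _ List.mem_cons_self)), hub] at h3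
    rw [List.flatten_cons, List.flatten_cons] at h2
    omega

theorem rep_infix {h s b δ : ℕ} {Us Vs : List (List ℕ)} (hh : δ ≤ h) (hb : δ ≤ b)
    (hU : ∀ u ∈ Us, s ∉ u) (hUb : ∀ u ∈ Us, u.length = b)
    (hV : ∀ v ∈ Vs, s ∉ v) (hVb : ∀ v ∈ Vs, v.length = b)
    (hd : ∀ u ∈ Us, ∀ v ∈ Vs, δ ≤ ED u v) {A Z C : List ℕ}
    (hZ : Vs.flatMap (blk h s) = A ++ (Z ++ C)) :
    Us.length * δ ≤ ED (Us.flatMap (blk h s)) Z := by
  induction Us generalizing A Z with
  | nil => simp
  | cons u Us ih =>
    rw [List.flatMap_cons]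
    obtain ⟨Z1, Z2, hZ1, hc⟩ := ED_split (blk h s u) (Us.flatMap (blk h s)) Z
    have h1 : δ ≤ ED (blk h s u) Z1 :=
      ED_blk_infix (A := A) (C := Z2 ++ C) hh hb (hU u List.mem_cons_self)
        (hUb u List.mem_cons_self) hV hVb (hd u List.mem_cons_self)
        (by rw [hZ, hZ1, List.append_assoc])
    have h2 := ih (fun w hw => hU w (List.mem_cons_of_mem _ hw))
      (fun w hw => hUb w (List.mem_cons_of_mem _ hw))
      (fun w hw => hd w (List.mem_cons_of_mem _ hw)) (A := A ++ Z1) (Z := Z2)
      (by rw [hZ, hZ1]; simp)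
    rw [List.length_cons, Nat.succ_mul]
    omega

theorem ED_rep {h s b δ : ℕ} {Us Vs : List (List ℕ)} (hh : δ ≤ h) (hb : δ ≤ b)
    (hU : ∀ u ∈ Us, s ∉ u) (hUb : ∀ u ∈ Us, u.length = b)
    (hV : ∀ v ∈ Vs, s ∉ v) (hVb : ∀ v ∈ Vs, v.length = b)
    (hd : ∀ u ∈ Us, ∀ v ∈ Vs, δ ≤ ED u v) :
    Us.length * δ ≤ ED (Us.flatMap (blk h s)) (Vs.flatMap (blk h s)) :=
  rep_infix (A := []) (C := []) hh hb hU hUb hV hVb hd (by simp)

end Vale.Agent.P238.X
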