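import Vale.Agent.P238.X.Pair
import Vale.Agent.P238.X.Rep

/-!
# P238: the far pairs at the next level
-/

namespace Vale.Agent.P238.X

theorem length_core {k h b : ℕ} {u v w : List ℕ} (hu : u.length = b) (hv : v.length = b)
    (hw : w.length = b) : (core k h u v w).length = 3 * b + 2 * h := by
  unfold core
  simp only [List.length_append, List.length_replicate, hu, hv, hw]
  ring

theorem length_grp {k h b : ℕ} {u v w : List ℕ} (hu : u.length = b) (hv : v.length = b)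
    (hw : w.length = b) : (grp k h u v w).length = 3 * b + 4 * h := by
  unfold grp blk
  simp only [List.length_append, List.length_replicate, length_core hu hv hw]
  ring

theorem length_nw {X : Type} {r k : ℕ} {τ : ZMod 3 → X → X} {w : X → List ℕ}
    (hw : ∀ x, (w x).length = (33 * r) ^ k) (x : X × X × X) :
    (nw r k τ w x).length = (33 * r) ^ (k + 1) := by
  unfold nw
  rw [List.length_flatMap]
  have h : ∀ j : ℕ, (grp k (2 * (33 * r) ^ k) (w (τ (j : ZMod 3) x.1)) (w (τ (j : ZMod 3) x.2.1))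
      (w (τ (j : ZMod 3) x.2.2))).length = 11 * (33 * r) ^ k := by
    intro j
    rw [length_grp (hw _) (hw _) (hw _)]
    ring
  simp only [h, List.map_const', List.length_range, List.sum_replicate, smul_eq_mul]
  ring

theorem lt_core {k h : ℕ} {u v w : List ℕ} (hu : ∀ a ∈ u, a < 3 + 3 * k)
    (hv : ∀ a ∈ v, a < 3 + 3 * k) (hw : ∀ a ∈ w, a < 3 + 3 * k) :
    ∀ a ∈ core k h u v w, a < 5 + 3 * k := by
  intro a ha
  unfold core at ha
  simp only [List.mem_append, List.mem_replicate] at ha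
  rcases ha with ha | ha | ha | ha | ha
  · have := hu a ha; omega
  · omega
  · have := hv a ha; omega
  · omega
  · have := hw a ha; omega

theorem lt_nw {X : Type} {r k : ℕ} {τ : ZMod 3 → X → X} {w : X → List ℕ}
    (hw : ∀ x, ∀ a ∈ w x, a < 3 + 3 * k) (x : X × X × X) :
    ∀ a ∈ nw r k τ w x, a < 3 + 3 * (k + 1) := by
  intro a ha
  unfold nw at ha
  rw [List.mem_flatMap] at ha
  obtain ⟨j, -, ha⟩ := ha
  unfold grp blk at ha
  simp only [List.mem_append, List.mem_replicate] at ha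
  rcases ha with ha | ha | ha
  · omega
  · have := lt_core (hw _) (hw _) (hw _) a ha
    omega
  · omega

theorem two_ne (t s : ZMod 3) (hs : s ≠ 0) :
    (t + s ≠ 0 ∧ t + 2 * s ≠ 0) ∨ (t ≠ 0 ∧ t + 2 * s ≠ 0) ∨ (t ≠ 0 ∧ t + s ≠ 0) := by
  revert t s
  decide

theorem far_step {X : Type} {r k : ℕ} (_hr : 1 ≤ r) {τ : ZMod 3 → X → X} {w : X → List ℕ}
    (_τ_zero : ∀ x, τ 0 x = x) (τ_add : ∀ s t x, τ s (τ t x) = τ (s + t) x)
    (length_w : ∀ x, (w x).length = (33 * r) ^ k) (lt_w : ∀ x, ∀ a ∈ w x, a < 3 + 3 * k)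
    (far : ∀ x s, s ≠ 0 → (6 * r) ^ k ≤ ED (w x) (w (τ s x))) (x : X × X × X) {s : ZMod 3}
    (hs : s ≠ 0) : (6 * r) ^ (k + 1) ≤ ED (nw r k τ w x) (nw r k τ w (tau' τ s x)) := by
  have hle : (6 * r) ^ k ≤ (33 * r) ^ k := Nat.pow_le_pow_left (by omega) k
  -- distances of translates
  have hd : ∀ (y : X) (i j : ZMod 3), j - i ≠ 0 →
      (6 * r) ^ k ≤ ED (w (τ i y)) (w (τ j y)) := by
    intro y i j hij
    have h := far (τ i y) (j - i) hij
    rwa [τ_add, sub_add_cancel] at h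
  have key : ∀ i j : ZMod 3, 2 * (6 * r) ^ k ≤
      ED (core k (2 * (33 * r) ^ k) (w (τ i x.1)) (w (τ i x.2.1)) (w (τ i x.2.2)))
        (core k (2 * (33 * r) ^ k) (w (τ j (tau' τ s x).1)) (w (τ j (tau' τ s x).2.1))
          (w (τ j (tau' τ s x).2.2))) := by
    intro i j
    refine le_trans ?_ (ED_core (lt_w _) (lt_w _) (lt_w _) (lt_w _) (lt_w _) (lt_w _))
    refine le_min (by omega) ?_
    unfold tau'
    simp only [τ_add]
    have e0 : j - i ≠ 0 → (6 * r) ^ k ≤ ED (w (τ i x.1)) (w (τ j x.1)) := hd _ _ _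
    have e1 : (j - i) + s ≠ 0 → (6 * r) ^ k ≤ ED (w (τ i x.2.1)) (w (τ (j + s) x.2.1)) := by
      intro h
      exact hd _ _ _ (by rwa [add_sub_right_comm])
    have e2 : (j - i) + 2 * s ≠ 0 →
        (6 * r) ^ k ≤ ED (w (τ i x.2.2)) (w (τ (j + 2 * s) x.2.2)) := by
      intro h
      exact hd _ _ _ (by rwa [add_sub_right_comm])
    rcases two_ne (j - i) s hs with ⟨h1, h2⟩ | ⟨h1, h2⟩ | ⟨h1, h2⟩
    · have := e1 h1; have := e2 h2; omega
    · have := e0 h1; have := e2 h2; omega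
    · have := e0 h1; have := e1 h2; omega
  have hform : ∀ y : X × X × X, nw r k τ w y =
      ((List.range (3 * r)).map (fun j : ℕ => core k (2 * (33 * r) ^ k) (w (τ (j : ZMod 3) y.1))
        (w (τ (j : ZMod 3) y.2.1)) (w (τ (j : ZMod 3) y.2.2)))).flatMap
        (blk (2 * (33 * r) ^ k) (5 + 3 * k)) := by
    intro y
    unfold nw grp
    rw [List.flatMap_map]
  rw [hform, hform]
  have hmem : ∀ (y : X × X × X), ∀ u ∈ (List.range (3 * r)).map (fun j : ℕ =>
      core k (2 * (33 * r) ^ k) (w (τ (j : ZMod 3) y.1))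
        (w (τ (j : ZMod 3) y.2.1)) (w (τ (j : ZMod 3) y.2.2))),
      ∃ j : ZMod 3, u = core k (2 * (33 * r) ^ k) (w (τ j y.1)) (w (τ j y.2.1))
        (w (τ j y.2.2)) := by
    intro y u hu
    rw [List.mem_map] at hu
    obtain ⟨j, -, rfl⟩ := hu
    exact ⟨_, rfl⟩
  have hrep := ED_rep (h := 2 * (33 * r) ^ k) (s := 5 + 3 * k) (b := 7 * (33 * r) ^ k)
    (δ := 2 * (6 * r) ^ k)
    (Us := (List.range (3 * r)).map (fun j : ℕ => core k (2 * (33 * r) ^ k)
      (w (τ (j : ZMod 3) x.1)) (w (τ (j : ZMod 3) x.2.1)) (w (τ (j : ZMod 3) x.2.2))))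
    (Vs := (List.range (3 * r)).map (fun j : ℕ => core k (2 * (33 * r) ^ k)
      (w (τ (j : ZMod 3) (tau' τ s x).1)) (w (τ (j : ZMod 3) (tau' τ s x).2.1))
      (w (τ (j : ZMod 3) (tau' τ s x).2.2))))
    (by omega) (by omega) ?_ ?_ ?_ ?_ ?_
  · rw [List.length_map, List.length_range] at hrep
    calc (6 * r) ^ (k + 1) = 3 * r * (2 * (6 * r) ^ k) := by ring
      _ ≤ _ := hrep
  · intro u hu hcon
    obtain ⟨j, rfl⟩ := hmem _ u hu
    have := lt_core (lt_w _) (lt_w _) (lt_w _) _ hcon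
    omega
  · intro u hu
    obtain ⟨j, rfl⟩ := hmem _ u hu
    rw [length_core (length_w _) (length_w _) (length_w _)]
    ring
  · intro u hu hcon
    obtain ⟨j, rfl⟩ := hmem _ u hu
    have := lt_core (lt_w _) (lt_w _) (lt_w _) _ hcon
    omega
  · intro u hu
    obtain ⟨j, rfl⟩ := hmem _ u hu
    rw [length_core (length_w _) (length_w _) (length_w _)]
    ring
  · intro u hu v hv
    obtain ⟨i, rfl⟩ := hmem _ u hu
    obtain ⟨j, rfl⟩ := hmem _ v hv
    exact key i j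

end Vale.Agent.P238.X
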