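import Mathlib

/-!
# P238: numerics
-/

namespace Vale.Agent.P238.X

open Filter Topology

theorem num : ∃ c : ℝ, 0 < c ∧ ∃ n₀ : ℕ, ∀ n : ℕ, n₀ ≤ n → ∀ D : ℝ, 0 ≤ D →
    (∀ K : ℕ, (3 + 3 * K) * (33 * 8 ^ K) ^ K ≤ n →
      (4 / 3 : ℝ) ^ K ≤ 12 * (3 + 3 * K) * D) →
    Real.exp (c * Real.sqrt (Real.log n)) ≤ D := by
  have hexp : Real.exp (1 / 5) ≤ 5 / 4 := by
    have h := Real.one_sub_le_exp_neg (1 / 5 : ℝ)
    rw [Real.exp_neg] at h
    have h0 := Real.exp_pos (1 / 5 : ℝ)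
    have h2 : (4 / 5 : ℝ) ≤ (Real.exp (1 / 5))⁻¹ := by linarith
    rw [le_inv_comm₀ (by norm_num) h0] at h2
    linarith
  set ρ : ℝ := Real.exp (1 / 5) * (3 / 4) with hρ
  have hρ0 : 0 < ρ := by positivity
  have hρ1 : ρ < 1 := by
    rw [hρ]; linarith
  have ht1 : Tendsto (fun K : ℕ => (K : ℝ) * ρ ^ K) atTop (𝓝 0) :=
    tendsto_self_mul_const_pow_of_lt_one hρ0.le hρ1
  have ht2 : Tendsto (fun K : ℕ => ρ ^ K) atTop (𝓝 0) :=
    tendsto_pow_atTop_nhds_zero_of_lt_one hρ0.le hρ1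
  have ht3 : Tendsto (fun K : ℕ => 45 * ((K : ℝ) * ρ ^ K + ρ ^ K)) atTop (𝓝 0) := by
    have := (ht1.add ht2).const_mul 45
    simpa using this
  obtain ⟨K₀, hK₀⟩ := eventually_atTop.1 (ht3.eventually (ge_mem_nhds (by norm_num : (0:ℝ) < 1)))
  set s₀ : ℝ := max 8 (2 * (K₀ + 1)) with hs₀
  refine ⟨1 / 10, by norm_num, ⌈Real.exp (s₀ ^ 2)⌉₊, ?_⟩
  intro n hn D hD h
  have hn' : Real.exp (s₀ ^ 2) ≤ n := (Nat.le_ceil _).trans (by exact_mod_cast hn)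
  have hnpos : (0 : ℝ) < n := (Real.exp_pos _).trans_le hn'
  set s := Real.sqrt (Real.log n) with hs
  have hlog : s₀ ^ 2 ≤ Real.log n := by
    rw [Real.le_log_iff_exp_le hnpos]; exact hn'
  have hs0pos : (0 : ℝ) ≤ s₀ := le_trans (by norm_num) (le_max_left _ _)
  have hss : s₀ ≤ s := Real.le_sqrt_of_sq_le hlog
  have hs8 : 8 ≤ s := (le_max_left _ _).trans hss
  have hsK : 2 * ((K₀ : ℝ) + 1) ≤ s := (le_max_right _ _).trans hss
  have hsq : s ^ 2 = Real.log n := Real.sq_sqrt ((sq_nonneg _).trans hlog)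
  set K : ℕ := ⌊s / 2⌋₊ with hK
  have hK1 : (K : ℝ) ≤ s / 2 := Nat.floor_le (by linarith)
  have hK2 : s / 2 < K + 1 := Nat.lt_floor_add_one _
  have hKK : K₀ ≤ K := by
    have : (K₀ : ℝ) < K + 1 := by linarith
    have : K₀ < K + 1 := by exact_mod_cast this
    omega
  have hcond : (3 + 3 * K) * (33 * 8 ^ K) ^ K ≤ n := by
    have h1 : (3 + 3 * K) * (33 * 8 ^ K) ^ K ≤ 2 ^ (3 * K ^ 2 + 7 * K + 2) := by
      have a1 : 3 + 3 * K ≤ 2 ^ (K + 2) := by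
        have : K + 1 ≤ 2 ^ K := Nat.lt_two_pow_self
        rw [pow_add]
        omega
      have a2 : (33 * 8 ^ K) ^ K ≤ 2 ^ (3 * K ^ 2 + 6 * K) := by
        calc (33 * 8 ^ K) ^ K ≤ (2 ^ 6 * 8 ^ K) ^ K := by
              apply Nat.pow_le_pow_left
              exact Nat.mul_le_mul_right _ (by norm_num)
          _ = 2 ^ (3 * K ^ 2 + 6 * K) := by
              rw [show (8 : ℕ) = 2 ^ 3 by norm_num, ← pow_mul, ← pow_add, ← pow_mul]
              congr 1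
              ring
      calc (3 + 3 * K) * (33 * 8 ^ K) ^ K ≤ 2 ^ (K + 2) * 2 ^ (3 * K ^ 2 + 6 * K) :=
            Nat.mul_le_mul a1 a2
        _ = _ := by rw [← pow_add]; congr 1; ring
    have h2 : ((2 ^ (3 * K ^ 2 + 7 * K + 2) : ℕ) : ℝ) ≤ n := by
      push_cast
      rw [← Real.log_le_log_iff (by positivity) hnpos, Real.log_pow, ← hsq]
      have hl : Real.log 2 < 0.6931471808 := Real.log_two_lt_d9
      have hl0 : 0 < Real.log 2 := Real.log_pos (by norm_num)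
      push_cast
      have hK0 : (0 : ℝ) ≤ K := Nat.cast_nonneg K
      have hKs : (K : ℝ) ^ 2 ≤ (s / 2) ^ 2 := pow_le_pow_left₀ hK0 hK1 2
      have hA : (3 : ℝ) * K ^ 2 + 7 * K + 2 ≤ 3 * (s / 2) ^ 2 + 7 * (s / 2) + 2 := by linarith
      have hA0 : (0 : ℝ) ≤ 3 * K ^ 2 + 7 * K + 2 := by positivity
      calc (3 * (K : ℝ) ^ 2 + 7 * K + 2) * Real.log 2
          ≤ (3 * (s / 2) ^ 2 + 7 * (s / 2) + 2) * 0.6931471808 :=
            mul_le_mul hA hl.le hl0.le (by nlinarith)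
        _ ≤ s ^ 2 := by nlinarith
    have h3 : (2 ^ (3 * K ^ 2 + 7 * K + 2) : ℕ) ≤ n := by exact_mod_cast h2
    exact h1.trans h3
  have hD1 := h K hcond
  have hKev := hK₀ K hKK
  -- exp (s / 10) ≤ exp ((K + 1) / 5)
  have hE : Real.exp (1 / 10 * s) ≤ 5 / 4 * Real.exp (1 / 5) ^ K := by
    have h1 : 1 / 10 * s ≤ 1 / 5 + K * (1 / 5) := by linarith
    calc Real.exp (1 / 10 * s) ≤ Real.exp (1 / 5 + K * (1 / 5)) := Real.exp_le_exp.2 h1
      _ = Real.exp (1 / 5) * Real.exp (1 / 5) ^ K := by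
        rw [Real.exp_add, Real.exp_nat_mul]
      _ ≤ _ := mul_le_mul_of_nonneg_right hexp (by positivity)
  have hfin : 12 * (3 + 3 * (K : ℝ)) * Real.exp (1 / 10 * s) ≤ (4 / 3) ^ K := by
    have hK0 : (0 : ℝ) ≤ K := Nat.cast_nonneg K
    have h43 : (0 : ℝ) < (4 / 3) ^ K := by positivity
    have e1 : ρ ^ K * (4 / 3) ^ K = Real.exp (1 / 5) ^ K := by
      rw [hρ, ← mul_pow]
      congr 1
      ring
    calc 12 * (3 + 3 * (K : ℝ)) * Real.exp (1 / 10 * s)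
        ≤ 12 * (3 + 3 * (K : ℝ)) * (5 / 4 * Real.exp (1 / 5) ^ K) :=
          mul_le_mul_of_nonneg_left hE (by positivity)
      _ = (45 * ((K : ℝ) * ρ ^ K + ρ ^ K)) * (4 / 3) ^ K := by rw [← e1]; ring
      _ ≤ 1 * (4 / 3) ^ K := mul_le_mul_of_nonneg_right hKev h43.le
      _ = _ := one_mul _
  have hpos : (0 : ℝ) < 12 * (3 + 3 * (K : ℝ)) := by positivity
  have := hfin.trans hD1
  exact le_of_mul_le_mul_left this hpos

end Vale.Agent.P238.X
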