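import Vale.Agent.P238.X.Key
import Vale.Agent.P238.X.Num
import Vale.Agent.P238.C1

/-!
# P238: `c₁({0,1}ⁿ, ED) ≥ exp (c √(log n))`
-/

namespace Vale.Agent.P238.X

theorem c1_exp_lower : ∃ c : ℝ, 0 < c ∧ ∃ n₀ : ℕ, ∀ n : ℕ, n₀ ≤ n →
    ENNReal.ofReal (Real.exp (c * Real.sqrt (Real.log n))) ≤ c1 n := by
  obtain ⟨c, hc, n₀, h⟩ := num
  refine ⟨c, hc, max n₀ 1, ?_⟩
  intro n hn
  have hn0 : n₀ ≤ n := le_trans (le_max_left _ _) hn
  have hn1 : 1 ≤ n := le_trans (le_max_right _ _) hn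
  unfold c1
  refine le_iInf (fun f => le_iInf (fun hf => ?_))
  unfold distortion
  refine dist_lower hn1 f hf _ _ ?_ ?_ _ ?_
  · intro x y hxy
    exact le_iSup_of_le x (le_iSup_of_le y (le_iSup_of_le hxy le_rfl))
  · intro x y hxy
    exact le_iSup_of_le x (le_iSup_of_le y (le_iSup_of_le hxy le_rfl))
  · intro α β hα hβ h1 h2
    exact h n hn0 (α * β) (mul_nonneg hα hβ) fun K hK => key hK hα hβ f h1 h2

end Vale.Agent.P238.X
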