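import Vale.Agent.P238.X.Base
import Vale.Agent.P238.MainL1

/-!
# P238: from real functions to functions with values in `ℓ₁`
-/

namespace Vale.Agent.P238.X

open Finset

/-- the inequality for `{0,1}`-valued functions with absolute values -/
theorem l1_bool {r k : ℕ} (L : Lev r k) (g : L.X → ℝ) (hg : ∀ x, g x = 0 ∨ g x = 1) :
    letI := L.fX
    letI := L.fι
    (∑ x, ∑ s, |g x - g (L.τ s x)|) / (3 * Fintype.card L.X) ≤
      ∑ i, L.c i * |g (L.u i) - g (L.v i)| := by
  letI := L.fX
  letI := L.fι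
  have habs : ∀ x y, |g x - g y| = (g x - g y) ^ 2 := by
    intro x y
    rcases hg x with h1 | h1 <;> rcases hg y with h2 | h2 <;> rw [h1, h2] <;> norm_num
  simp only [habs]
  exact L.poin g

theorem poin_l1 {r k : ℕ} (L : Lev r k) (F : L.X → Ell1) :
    letI := L.fX
    letI := L.fι
    (∑ x, ∑ s, ‖F x - F (L.τ s x)‖) / (3 * Fintype.card L.X) ≤
      ∑ i, L.c i * ‖F (L.u i) - F (L.v i)‖ := by
  letI := L.fX
  letI := L.fι
  -- linearity of both sides
  have key : ∀ {κ : Type} (d : κ → L.X → L.X → ℝ) (D : L.X → L.X → ℝ),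
      (∀ x y, HasSum (fun m => d m x y) (D x y)) →
      (∀ m, (∑ x, ∑ s, d m x (L.τ s x)) / (3 * Fintype.card L.X) ≤
        ∑ i, L.c i * d m (L.u i) (L.v i)) →
      (∑ x, ∑ s, D x (L.τ s x)) / (3 * Fintype.card L.X) ≤
        ∑ i, L.c i * D (L.u i) (L.v i) := by
    intro κ d D hD hm
    have h1 : HasSum (fun m => (∑ x, ∑ s, d m x (L.τ s x)) / (3 * Fintype.card L.X))
        ((∑ x, ∑ s, D x (L.τ s x)) / (3 * Fintype.card L.X)) :=
      (hasSum_sum fun x _ => hasSum_sum fun s _ => hD x (L.τ s x)).div_const _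
    have h2 : HasSum (fun m => ∑ i, L.c i * d m (L.u i) (L.v i))
        (∑ i, L.c i * D (L.u i) (L.v i)) :=
      hasSum_sum fun i _ => (hD (L.u i) (L.v i)).mul_left _
    exact hasSum_le hm h1 h2
  -- real functions
  have hreal : ∀ f : L.X → ℝ, (∑ x, ∑ s, |f x - f (L.τ s x)|) / (3 * Fintype.card L.X) ≤
      ∑ i, L.c i * |f (L.u i) - f (L.v i)| := by
    intro f
    obtain ⟨m, lam, g, hl, hg, hcut⟩ := cut_decomp (Finset.univ : Finset L.X) f
    refine key (fun (j : Fin m) x y => lam j * |g j x - g j y|) (fun x y => |f x - f y|) ?_ ?_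
    · intro x y
      rw [hcut x (Finset.mem_univ x) y (Finset.mem_univ y)]
      exact hasSum_fintype _
    · intro j
      have h := mul_le_mul_of_nonneg_left (l1_bool L (g j) (hg j)) (hl j)
      have e1 : (∑ x, ∑ s, lam j * |g j x - g j (L.τ s x)|) / (3 * Fintype.card L.X) =
          lam j * ((∑ x, ∑ s, |g j x - g j (L.τ s x)|) / (3 * Fintype.card L.X)) := by
        rw [mul_div_assoc', Finset.mul_sum]
        congr 1
        refine Finset.sum_congr rfl fun x _ => ?_
        rw [Finset.mul_sum]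
      have e2 : ∑ i, L.c i * (lam j * |g j (L.u i) - g j (L.v i)|) =
          lam j * ∑ i, L.c i * |g j (L.u i) - g j (L.v i)| := by
        rw [Finset.mul_sum]
        refine Finset.sum_congr rfl fun i _ => ?_
        ring
      rw [e1, e2]
      exact h
  refine key (fun (m : ℕ) x y => |F x m - F y m|) (fun x y => ‖F x - F y‖) ?_ ?_
  · intro x y
    have h := lp.hasSum_norm (p := 1) (by simp) (F x - F y)
    simpa using h
  · intro m
    exact hreal (fun x => F x m)

end Vale.Agent.P238.X
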