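import Vale.Agent.P238.X.Levels
import Vale.Agent.P238.X.L1
import Vale.Agent.P238.X.Enc

/-!
# P238: the inequality for the distortion
-/

namespace Vale.Agent.P238.X

open Finset

theorem beta_aux {r : ℕ} (hr : 1 ≤ r) (k : ℕ) :
    beta r k ≤ (9 * (r : ℝ) / 2) ^ k * (1 + (22 / 3) ^ k / r) := by
  have hr0 : (0 : ℝ) < r := by exact_mod_cast hr
  induction k with
  | zero =>
    simp only [beta, pow_zero, one_mul]
    have : (0 : ℝ) ≤ 1 / r := by positivity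
    linarith
  | succ k ih =>
    simp only [beta]
    have h1 : 9 * (r : ℝ) / 2 * beta r k ≤
        9 * (r : ℝ) / 2 * ((9 * (r : ℝ) / 2) ^ k * (1 + (22 / 3) ^ k / r)) :=
      mul_le_mul_of_nonneg_left ih (by positivity)
    have h2 : (33 * (r : ℝ)) ^ k = (9 * (r : ℝ) / 2) ^ k * (22 / 3) ^ k := by
      rw [← mul_pow]
      congr 1
      ring
    have h3 : (0 : ℝ) ≤ (9 * (r : ℝ) / 2) ^ k * (22 / 3) ^ k := by positivity
    rw [h2]
    have h4 : (9 * (r : ℝ) / 2) ^ (k + 1) * (1 + (22 / 3) ^ (k + 1) / r) -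
        9 * (r : ℝ) / 2 * ((9 * (r : ℝ) / 2) ^ k * (1 + (22 / 3) ^ k / r)) =
        57 / 2 * ((9 * (r : ℝ) / 2) ^ k * (22 / 3) ^ k) := by
      field_simp
      ring
    linarith

theorem beta_le (K : ℕ) : beta (8 ^ K) K ≤ 2 * (9 * (8 ^ K : ℕ) / 2 : ℝ) ^ K := by
  have h := beta_aux (r := 8 ^ K) (Nat.one_le_pow _ _ (by norm_num)) K
  have h1 : (22 / 3 : ℝ) ^ K / (8 ^ K : ℕ) ≤ 1 := by
    rw [div_le_one (by positivity)]
    push_cast
    exact pow_le_pow_left₀ (by norm_num) (by norm_num) K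
  have h2 : (0 : ℝ) ≤ (9 * (8 ^ K : ℕ) / 2 : ℝ) ^ K := by positivity
  calc beta (8 ^ K) K ≤ (9 * ((8 ^ K : ℕ) : ℝ) / 2) ^ K * (1 + (22 / 3) ^ K / (8 ^ K : ℕ)) := h
    _ ≤ (9 * ((8 ^ K : ℕ) : ℝ) / 2) ^ K * (1 + 1) := by gcongr
    _ = 2 * (9 * (8 ^ K : ℕ) / 2 : ℝ) ^ K := by ring

theorem key {n K : ℕ} (hn : (3 + 3 * K) * (33 * 8 ^ K) ^ K ≤ n) {α β : ℝ} (hα : 0 ≤ α)
    (hβ : 0 ≤ β) (f : Word n → Ell1)
    (h1 : ∀ x y : Word n, ‖f x - f y‖ ≤ α * ED x.1 y.1)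
    (h2 : ∀ x y : Word n, (ED x.1 y.1 : ℝ) ≤ β * ‖f x - f y‖) :
    (4 / 3 : ℝ) ^ K ≤ 12 * (3 + 3 * K) * (α * β) := by
  obtain ⟨r, hr⟩ : ∃ r : ℕ, r = 8 ^ K := ⟨_, rfl⟩
  have hr1 : 1 ≤ r := by
    rw [hr]
    exact Nat.one_le_pow _ _ (by norm_num)
  have hrpos : (0 : ℝ) < (r : ℝ) := by exact_mod_cast hr1
  obtain ⟨L⟩ := exists_lev hr1 K
  letI := L.fX
  letI := L.fι
  haveI := L.nX
  have henc : ∀ x, (enc (L.w x)).length ≤ n := by
    intro x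
    refine le_trans (length_enc_le (L.lt_w x)) (le_trans ?_ hn)
    rw [L.length_w x, hr]
  set F : L.X → Ell1 := fun x => f ⟨pad n (L.w x), length_pad (henc x)⟩ with hF
  have hP := poin_l1 L F
  -- the upper bound
  have hup : ∑ i, L.c i * ‖F (L.u i) - F (L.v i)‖ ≤
      (α * (2 * (3 + 3 * K))) * beta r K := by
    refine L.cost (fun x y => ‖F x - F y‖) _ (by positivity) ?_
    intro x y e he
    have he0 := he 0
    rw [L.τ_zero, L.τ_zero] at he0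
    have h3 := h1 ⟨pad n (L.w x), length_pad (henc x)⟩ ⟨pad n (L.w y), length_pad (henc y)⟩
    have h4 := ED_pad_le (n := n) (L.lt_w x) (L.lt_w y) (henc x) (henc y)
    have h5 : (ED (pad n (L.w x)) (pad n (L.w y)) : ℝ) ≤ 2 * (3 + 3 * K) * e := by
      have h6 : ED (pad n (L.w x)) (pad n (L.w y)) ≤ 2 * (3 + 3 * K) * e :=
        le_trans h4 (Nat.mul_le_mul_left _ he0)
      exact_mod_cast h6
    calc ‖F x - F y‖ ≤ α * ED (pad n (L.w x)) (pad n (L.w y)) := h3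
      _ ≤ α * (2 * (3 + 3 * K) * e) := mul_le_mul_of_nonneg_left h5 hα
      _ = α * (2 * (3 + 3 * K)) * e := by ring
  -- the lower bound
  have hfar : ∀ x s, s ≠ 0 → ((6 * r : ℕ) : ℝ) ^ K / 2 ≤ β * ‖F x - F (L.τ s x)‖ := by
    intro x s hs
    have h3 := h2 ⟨pad n (L.w x), length_pad (henc x)⟩
      ⟨pad n (L.w (L.τ s x)), length_pad (henc _)⟩
    have h4 := ED_dec (pad n (L.w x)) (pad n (L.w (L.τ s x)))
    rw [dec_pad, dec_pad] at h4
    have h5 := L.far x s hs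
    have h6 : (((6 * r) ^ K : ℕ) : ℝ) ≤
        2 * (ED (pad n (L.w x)) (pad n (L.w (L.τ s x))) : ℝ) := by
      exact_mod_cast le_trans h5 h4
    push_cast at h6 ⊢
    simp only at h3
    linarith
  have hlow : ((6 * r : ℕ) : ℝ) ^ K * Fintype.card L.X ≤
      β * ∑ x, ∑ s, ‖F x - F (L.τ s x)‖ := by
    rw [Finset.mul_sum, mul_comm]
    have h3 : ∀ x ∈ (Finset.univ : Finset L.X), ((6 * r : ℕ) : ℝ) ^ K ≤
        β * ∑ s, ‖F x - F (L.τ s x)‖ := by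
      intro x _
      have h4 : ∑ s, ‖F x - F (L.τ s x)‖ =
          ‖F x - F (L.τ 0 x)‖ + ‖F x - F (L.τ 1 x)‖ + ‖F x - F (L.τ 2 x)‖ :=
        Fin.sum_univ_three (fun s : Fin 3 => ‖F x - F (L.τ s x)‖)
      rw [h4, mul_add, mul_add]
      have h5 := hfar x 1 (by decide)
      have h6 := hfar x 2 (by decide)
      have h7 : 0 ≤ β * ‖F x - F (L.τ 0 x)‖ := mul_nonneg hβ (norm_nonneg _)
      linarith
    have h4 := Finset.card_nsmul_le_sum _ _ _ h3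
    rw [nsmul_eq_mul, Finset.card_univ] at h4
    exact h4
  have hcard : (0 : ℝ) < Fintype.card L.X := by
    exact_mod_cast Fintype.card_pos
  have hb := beta_le K
  rw [← hr] at hb
  have hnn : (0 : ℝ) ≤ α * (2 * (3 + 3 * K)) := by positivity
  have h3 : (∑ x, ∑ s, ‖F x - F (L.τ s x)‖) / (3 * Fintype.card L.X) ≤
      (α * (2 * (3 + 3 * K))) * (2 * (9 * (r : ℝ) / 2) ^ K) :=
    le_trans hP (le_trans hup (mul_le_mul_of_nonneg_left hb hnn))
  rw [div_le_iff₀ (by positivity)] at h3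
  have h4 := mul_le_mul_of_nonneg_left h3 hβ
  have h5 := le_trans hlow h4
  have h6 : ((6 * r : ℕ) : ℝ) ^ K = (4 / 3) ^ K * (9 * (r : ℝ) / 2) ^ K := by
    rw [← mul_pow]
    congr 1
    push_cast
    ring
  rw [h6] at h5
  have h7 : (0 : ℝ) < (9 * (r : ℝ) / 2) ^ K := by positivity
  have h8 : (4 / 3 : ℝ) ^ K * ((9 * (r : ℝ) / 2) ^ K * Fintype.card L.X) ≤
      (12 * (3 + 3 * K) * (α * β)) * ((9 * (r : ℝ) / 2) ^ K * Fintype.card L.X) := by
    refine le_trans (le_of_eq (by ring)) (le_trans h5 (le_of_eq (by ring)))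
  exact le_of_mul_le_mul_right h8 (by positivity)

end Vale.Agent.P238.X
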