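import Vale.Agent.P238.X.Base

/-!
# P238: the one-step inequality
-/

namespace Vale.Agent.P238.X

open Finset

theorem OneStep_sum3 (f : ZMod 3 → ℝ) : ∑ x, f x = f 0 + f 1 + f 2 := Fin.sum_univ_three f

theorem OneStep_I (g : ZMod 3 → ZMod 3 → ℝ) :
    ∑ x, ∑ y, ∑ s, (g x y - g x (y + s)) ^ 2 ≤
      ∑ x, ∑ y, ∑ s, (g x y - g (x + s) y) ^ 2 +
      ∑ x, ∑ y, ∑ s, (g x y - g (x + s) (y + s)) ^ 2 := by
  have h01 : (0 + 1 : ZMod 3) = 1 := by decide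
  have h02 : (0 + 2 : ZMod 3) = 2 := by decide
  have h00 : (0 + 0 : ZMod 3) = 0 := by decide
  have h10 : (1 + 0 : ZMod 3) = 1 := by decide
  have h11 : (1 + 1 : ZMod 3) = 2 := by decide
  have h12 : (1 + 2 : ZMod 3) = 0 := by decide
  have h20 : (2 + 0 : ZMod 3) = 2 := by decide
  have h21 : (2 + 1 : ZMod 3) = 0 := by decide
  have h22 : (2 + 2 : ZMod 3) = 1 := by decide
  simp only [OneStep_sum3, h01, h02, h00, h10, h11, h12, h20, h21, h22]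
  generalize g 0 0 = a
  generalize g 0 1 = b
  generalize g 0 2 = c
  generalize g 1 0 = d
  generalize g 1 1 = e
  generalize g 1 2 = f
  generalize g 2 0 = p
  generalize g 2 1 = q
  generalize g 2 2 = r
  -- S for (1,0): rows; S for (1,1): x + y = j
  have v1 := sq_nonneg ((a + b + c) - (d + e + f))
  have v2 := sq_nonneg ((d + e + f) - (p + q + r))
  have v3 := sq_nonneg ((p + q + r) - (a + b + c))
  have w1 := sq_nonneg ((a + f + q) - (b + d + r))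
  have w2 := sq_nonneg ((b + d + r) - (c + e + p))
  have w3 := sq_nonneg ((c + e + p) - (a + f + q))
  linarith

theorem OneStep_II (g : ZMod 3 → ZMod 3 → ℝ) :
    2 * ∑ x, ∑ y, ∑ s, (g x y - g (x + s) (y + 2 * s)) ^ 2 ≤
      ∑ x, ∑ y, ∑ s, (g x y - g (x + s) y) ^ 2 +
      ∑ x, ∑ y, ∑ s, (g x y - g x (y + s)) ^ 2 +
      ∑ x, ∑ y, ∑ s, (g x y - g (x + s) (y + s)) ^ 2 := by
  have m0 : (2 * 0 : ZMod 3) = 0 := by decide
  have m1 : (2 * 1 : ZMod 3) = 2 := by decide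
  have m2 : (2 * 2 : ZMod 3) = 1 := by decide
  have h01 : (0 + 1 : ZMod 3) = 1 := by decide
  have h02 : (0 + 2 : ZMod 3) = 2 := by decide
  have h00 : (0 + 0 : ZMod 3) = 0 := by decide
  have h10 : (1 + 0 : ZMod 3) = 1 := by decide
  have h11 : (1 + 1 : ZMod 3) = 2 := by decide
  have h12 : (1 + 2 : ZMod 3) = 0 := by decide
  have h20 : (2 + 0 : ZMod 3) = 2 := by decide
  have h21 : (2 + 1 : ZMod 3) = 0 := by decide
  have h22 : (2 + 2 : ZMod 3) = 1 := by decide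
  simp only [OneStep_sum3, m0, m1, m2, h01, h02, h00, h10, h11, h12, h20, h21, h22]
  generalize g 0 0 = a
  generalize g 0 1 = b
  generalize g 0 2 = c
  generalize g 1 0 = d
  generalize g 1 1 = e
  generalize g 1 2 = f
  generalize g 2 0 = p
  generalize g 2 1 = q
  generalize g 2 2 = r
  have w1 := sq_nonneg ((a + f + q) - (b + d + r))
  have w2 := sq_nonneg ((b + d + r) - (c + e + p))
  have w3 := sq_nonneg ((c + e + p) - (a + f + q))
  linarith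

/-- the inequality on `(ℤ/3)³` -/
theorem one_step_Z3 (h : ZMod 3 → ZMod 3 → ZMod 3 → ℝ) :
    ∑ x, ∑ y, ∑ z, ∑ s, (h x y z - h x (y + s) (z + 2 * s)) ^ 2 ≤
      1 / 2 * (∑ x, ∑ y, ∑ z, ∑ s, (h x y z - h (x + s) y z) ^ 2 +
        ∑ x, ∑ y, ∑ z, ∑ s, (h x y z - h x (y + s) z) ^ 2 +
        ∑ x, ∑ y, ∑ z, ∑ s, (h x y z - h x y (z + s)) ^ 2) +
      1 / 2 * ∑ x, ∑ y, ∑ z, ∑ s, (h x y z - h (x + s) (y + s) (z + s)) ^ 2 := by
  -- sum over x of (II)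
  have hII : 2 * ∑ x, ∑ y, ∑ z, ∑ s, (h x y z - h x (y + s) (z + 2 * s)) ^ 2 ≤
      ∑ x, ∑ y, ∑ z, ∑ s, (h x y z - h x (y + s) z) ^ 2 +
      ∑ x, ∑ y, ∑ z, ∑ s, (h x y z - h x y (z + s)) ^ 2 +
      ∑ x, ∑ y, ∑ z, ∑ s, (h x y z - h x (y + s) (z + s)) ^ 2 := by
    rw [Finset.mul_sum, ← Finset.sum_add_distrib, ← Finset.sum_add_distrib]
    exact Finset.sum_le_sum fun x _ => OneStep_II (h x)
  -- reindexing of the third variable
  have hre : ∀ Φ : ZMod 3 → ZMod 3 → ZMod 3 → ℝ, ∑ x, ∑ y, ∑ z, Φ x y z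
      = ∑ w, ∑ x, ∑ y, Φ x y (w + y) := by
    intro Φ
    have h1 : ∑ w, ∑ x, ∑ y, Φ x y (w + y) = ∑ x, ∑ y, ∑ w, Φ x y (w + y) := by
      rw [Finset.sum_comm]
      apply Finset.sum_congr rfl
      intro x _
      rw [Finset.sum_comm]
    rw [h1]
    apply Finset.sum_congr rfl
    intro x _
    apply Finset.sum_congr rfl
    intro y _
    exact (Equiv.sum_comp (Equiv.addRight y) (fun z => Φ x y z)).symm
  have hI : ∑ x, ∑ y, ∑ z, ∑ s, (h x y z - h x (y + s) (z + s)) ^ 2 ≤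
      ∑ x, ∑ y, ∑ z, ∑ s, (h x y z - h (x + s) y z) ^ 2 +
      ∑ x, ∑ y, ∑ z, ∑ s, (h x y z - h (x + s) (y + s) (z + s)) ^ 2 := by
    rw [hre (fun x y z => ∑ s, (h x y z - h x (y + s) (z + s)) ^ 2),
      hre (fun x y z => ∑ s, (h x y z - h (x + s) y z) ^ 2),
      hre (fun x y z => ∑ s, (h x y z - h (x + s) (y + s) (z + s)) ^ 2),
      ← Finset.sum_add_distrib]
    apply Finset.sum_le_sum
    intro w _
    have h1 := OneStep_I (fun x y => h x y (w + y))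
    simp only [add_assoc] at h1 ⊢
    exact h1
  linarith

/-- the triple shift preserves sums -/
theorem OneStep_shift {X : Type} [Fintype X] {τ : ZMod 3 → X → X}
    (τ_zero : ∀ x, τ 0 x = x) (τ_add : ∀ s t x, τ s (τ t x) = τ (s + t) x)
    (Φ : X × X × X → ℝ) :
    ∑ x : X × X × X, ∑ a, ∑ b, ∑ c, Φ (τ a x.1, τ b x.2.1, τ c x.2.2) = 27 * ∑ x, Φ x := by
  let E : ZMod 3 → (X ≃ X) := fun a =>
    ⟨τ a, τ (-a), fun x => by rw [τ_add, neg_add_cancel, τ_zero],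
      fun x => by rw [τ_add, add_neg_cancel, τ_zero]⟩
  have h1 : ∀ a b c, ∑ x : X × X × X, Φ (τ a x.1, τ b x.2.1, τ c x.2.2) = ∑ x, Φ x := by
    intro a b c
    exact Equiv.sum_comp (Equiv.prodCongr (E a) (Equiv.prodCongr (E b) (E c))) Φ
  have h2 : ∑ x : X × X × X, ∑ a, ∑ b, ∑ c, Φ (τ a x.1, τ b x.2.1, τ c x.2.2)
      = ∑ a, ∑ b, ∑ c, ∑ x : X × X × X, Φ (τ a x.1, τ b x.2.1, τ c x.2.2) := by
    rw [Finset.sum_comm]
    apply Finset.sum_congr rfl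
    intro a _
    rw [Finset.sum_comm]
    apply Finset.sum_congr rfl
    intro b _
    rw [Finset.sum_comm]
  rw [h2]
  simp only [h1, Finset.sum_const, Finset.card_univ, ZMod.card, nsmul_eq_mul]
  push_cast
  ring

/-- the inequality for an action of `ℤ/3` on a finite set -/
theorem one_step {X : Type} [Fintype X] {τ : ZMod 3 → X → X}
    (τ_zero : ∀ x, τ 0 x = x) (τ_add : ∀ s t x, τ s (τ t x) = τ (s + t) x)
    (g : X × X × X → ℝ) :
    ∑ x, ∑ s, (g x - g (tau' τ s x)) ^ 2 ≤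
      1 / 2 * (∑ x : X × X × X, ∑ s, (g x - g (τ s x.1, x.2.1, x.2.2)) ^ 2 +
        ∑ x : X × X × X, ∑ s, (g x - g (x.1, τ s x.2.1, x.2.2)) ^ 2 +
        ∑ x : X × X × X, ∑ s, (g x - g (x.1, x.2.1, τ s x.2.2)) ^ 2) +
      1 / 2 * ∑ x, ∑ s, (g x - g (kap τ s x)) ^ 2 := by
  have hs := OneStep_shift τ_zero τ_add
  have key : ∀ x : X × X × X, _ := fun x =>
    one_step_Z3 (fun a b c => g (τ a x.1, τ b x.2.1, τ c x.2.2))
  have hsum := Finset.sum_le_sum (s := Finset.univ) fun x _ => key x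
  simp only [Finset.sum_add_distrib, ← Finset.mul_sum] at hsum
  have e1 : ∑ x : X × X × X, ∑ a, ∑ b, ∑ c, ∑ s,
      (g (τ a x.1, τ b x.2.1, τ c x.2.2)
        - g (τ a x.1, τ (b + s) x.2.1, τ (c + 2 * s) x.2.2)) ^ 2
      = 27 * ∑ x, ∑ s, (g x - g (tau' τ s x)) ^ 2 := by
    rw [← hs]
    simp only [tau', τ_add, add_comm]
  have e2 : ∑ x : X × X × X, ∑ a, ∑ b, ∑ c, ∑ s,
      (g (τ a x.1, τ b x.2.1, τ c x.2.2)
        - g (τ (a + s) x.1, τ b x.2.1, τ c x.2.2)) ^ 2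
      = 27 * ∑ x : X × X × X, ∑ s, (g x - g (τ s x.1, x.2.1, x.2.2)) ^ 2 := by
    rw [← hs]
    simp only [τ_add, add_comm]
  have e3 : ∑ x : X × X × X, ∑ a, ∑ b, ∑ c, ∑ s,
      (g (τ a x.1, τ b x.2.1, τ c x.2.2)
        - g (τ a x.1, τ (b + s) x.2.1, τ c x.2.2)) ^ 2
      = 27 * ∑ x : X × X × X, ∑ s, (g x - g (x.1, τ s x.2.1, x.2.2)) ^ 2 := by
    rw [← hs]
    simp only [τ_add, add_comm]
  have e4 : ∑ x : X × X × X, ∑ a, ∑ b, ∑ c, ∑ s,
      (g (τ a x.1, τ b x.2.1, τ c x.2.2)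
        - g (τ a x.1, τ b x.2.1, τ (c + s) x.2.2)) ^ 2
      = 27 * ∑ x : X × X × X, ∑ s, (g x - g (x.1, x.2.1, τ s x.2.2)) ^ 2 := by
    rw [← hs]
    simp only [τ_add, add_comm]
  have e5 : ∑ x : X × X × X, ∑ a, ∑ b, ∑ c, ∑ s,
      (g (τ a x.1, τ b x.2.1, τ c x.2.2)
        - g (τ (a + s) x.1, τ (b + s) x.2.1, τ (c + s) x.2.2)) ^ 2
      = 27 * ∑ x, ∑ s, (g x - g (kap τ s x)) ^ 2 := by
    rw [← hs]
    simp only [kap, τ_add, add_comm]
  rw [e1, e2, e3, e4, e5] at hsum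
  linarith

end Vale.Agent.P238.X
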