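import Vale.Agent.P238.X.FarStep
import Vale.Agent.P238.X.CostStep
import Vale.Agent.P238.X.OneStep
import Vale.Agent.P238.EditPath

/-!
# P238: all levels exist
-/

namespace Vale.Agent.P238.X

open Finset

theorem ED_single_le (a b : ℕ) : ED [a] [b] ≤ 1 := by
  refine Nat.sInf_le ?_
  show EditPath 1 [a] [b]
  exact ⟨[b], EditStep.sub [] [] a b, rfl⟩

theorem one_le_ED_single {a b : ℕ} (h : a ≠ b) : 1 ≤ ED [a] [b] := by
  by_contra hcon
  have h0 : ED [a] [b] = 0 := by omega
  have h1 := ED_path [a] [b]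
  rw [h0] at h1
  have h2 : [a] = [b] := h1
  exact h (List.singleton_injective h2)

theorem lev_zero (r : ℕ) : Nonempty (Lev r 0) := by
  refine ⟨{
    X := ZMod 3
    ι := ZMod 3 × ZMod 3
    fX := inferInstance
    nX := inferInstance
    fι := inferInstance
    τ := fun s a => a + s
    w := fun a => [a.val]
    c := fun _ => 1 / 9
    u := fun p => p.1
    v := fun p => p.1 + p.2
    τ_zero := fun x => add_zero x
    τ_add := fun s t x => by ring
    length_w := fun x => by simp
    lt_w := fun x a ha => by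
      rw [List.mem_singleton] at ha
      rw [ha]
      exact ZMod.val_lt x
    far := fun x s hs => by
      rw [pow_zero]
      refine one_le_ED_single fun h => hs ?_
      have h2 := ZMod.val_injective 3 h
      have h3 : x + 0 = x + s := by rw [add_zero]; exact h2
      exact (add_left_cancel h3).symm
    c_nonneg := fun _ => by norm_num
    poin := fun g => by
      rw [Fintype.sum_prod_type, ZMod.card]
      simp only [← Finset.mul_sum]
      apply le_of_eq
      push_cast
      ring
    cost := fun D α hα h => by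
      have h1 : ∀ p : ZMod 3 × ZMod 3, (1 / 9 : ℝ) * D p.1 (p.1 + p.2) ≤ 1 / 9 * α := by
        intro p
        have h2 := h p.1 (p.1 + p.2) 1 (fun s => ED_single_le _ _)
        push_cast at h2
        linarith
      refine (Finset.sum_le_sum fun p _ => h1 p).trans ?_
      rw [Finset.sum_const, Finset.card_univ, Fintype.card_prod, ZMod.card, nsmul_eq_mul]
      unfold beta
      push_cast
      linarith }⟩

theorem sum_triple {X : Type} [Fintype X] (F : X → X → X → ℝ) :
    ∑ x : X × X × X, F x.1 x.2.1 x.2.2 = ∑ b, ∑ c, ∑ a, F a b c := by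
  rw [Fintype.sum_prod_type]
  simp only [Fintype.sum_prod_type]
  rw [Finset.sum_comm]
  refine Finset.sum_congr rfl fun b _ => ?_
  rw [Finset.sum_comm]

theorem sum_triple' {X : Type} [Fintype X] (F : X → X → X → ℝ) :
    ∑ x : X × X × X, F x.1 x.2.1 x.2.2 = ∑ a, ∑ c, ∑ b, F a b c := by
  rw [Fintype.sum_prod_type]
  simp only [Fintype.sum_prod_type]
  refine Finset.sum_congr rfl fun a _ => ?_
  rw [Finset.sum_comm]

theorem sum_triple'' {X : Type} [Fintype X] (F : X → X → X → ℝ) :
    ∑ x : X × X × X, F x.1 x.2.1 x.2.2 = ∑ a, ∑ b, ∑ c, F a b c := by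
  rw [Fintype.sum_prod_type]
  simp only [Fintype.sum_prod_type]

theorem lev_succ {r k : ℕ} (hr : 1 ≤ r) (L : Lev r k) : Nonempty (Lev r (k + 1)) := by
  obtain ⟨X, ι, fX, nX, fι, τ, w, c, u, v, τ_zero, τ_add, length_w, lt_w, far, c_nonneg, poin,
    cost⟩ := L
  have hn : (0 : ℝ) < Fintype.card X := by exact_mod_cast Fintype.card_pos
  set n : ℝ := ((Fintype.card X : ℕ) : ℝ) with hndef
  have hcard : ((Fintype.card (X × X × X) : ℕ) : ℝ) = n ^ 3 := by
    rw [Fintype.card_prod, Fintype.card_prod]
    push_cast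
    rw [← hndef]
    ring
  refine ⟨{
    X := X × X × X
    ι := (X × X × ι) ⊕ ((X × X × ι) ⊕ ((X × X × ι) ⊕ ((X × X × X) × ZMod 3)))
    fX := inferInstance
    nX := inferInstance
    fι := inferInstance
    τ := tau' τ
    w := nw r k τ w
    c := Sum.elim (fun p => 1 / (2 * n ^ 2) * c p.2.2) (Sum.elim
      (fun p => 1 / (2 * n ^ 2) * c p.2.2) (Sum.elim (fun p => 1 / (2 * n ^ 2) * c p.2.2)
      (fun _ => 1 / (6 * n ^ 3))))
    u := Sum.elim (fun p => (u p.2.2, p.1, p.2.1)) (Sum.elim
      (fun p => (p.1, u p.2.2, p.2.1)) (Sum.elim (fun p => (p.1, p.2.1, u p.2.2))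
      (fun p => p.1)))
    v := Sum.elim (fun p => (v p.2.2, p.1, p.2.1)) (Sum.elim
      (fun p => (p.1, v p.2.2, p.2.1)) (Sum.elim (fun p => (p.1, p.2.1, v p.2.2))
      (fun p => kap τ p.2 p.1)))
    τ_zero := fun x => by
      unfold tau'
      rw [mul_zero, τ_zero, τ_zero]
    τ_add := fun s t x => by
      unfold tau'
      simp only [τ_add, mul_add]
    length_w := length_nw length_w
    lt_w := lt_nw lt_w
    far := fun x s hs => far_step hr τ_zero τ_add length_w lt_w far x hs
    c_nonneg := ?_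
    poin := ?_
    cost := ?_ }⟩
  · rintro (p | p | p | p)
    · exact mul_nonneg (by positivity) (c_nonneg _)
    · exact mul_nonneg (by positivity) (c_nonneg _)
    · exact mul_nonneg (by positivity) (c_nonneg _)
    · simp only [Sum.elim_inr]
      positivity
  · intro g
    rw [hcard]
    simp only [Fintype.sum_sum_type, Sum.elim_inl, Sum.elim_inr]
    have h0 := one_step τ_zero τ_add g
    -- one coordinate
    have hc : ∀ f : X → ℝ, ∑ a, ∑ s, (f a - f (τ s a)) ^ 2 ≤
        3 * n * ∑ i, c i * (f (u i) - f (v i)) ^ 2 := by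
      intro f
      have h1 := poin f
      rw [div_le_iff₀ (by positivity)] at h1
      linarith
    have h1 : ∑ x : X × X × X, ∑ s, (g x - g (τ s x.1, x.2.1, x.2.2)) ^ 2 ≤
        3 * n * ∑ p : X × X × ι, c p.2.2 *
          (g (u p.2.2, p.1, p.2.1) - g (v p.2.2, p.1, p.2.1)) ^ 2 := by
      rw [sum_triple (fun a b c => ∑ s, (g (a, b, c) - g (τ s a, b, c)) ^ 2)]
      simp only [Fintype.sum_prod_type]
      rw [Finset.mul_sum]
      refine Finset.sum_le_sum fun b _ => ?_
      rw [Finset.mul_sum]
      refine Finset.sum_le_sum fun c' _ => ?_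
      exact hc (fun a => g (a, b, c'))
    have h2 : ∑ x : X × X × X, ∑ s, (g x - g (x.1, τ s x.2.1, x.2.2)) ^ 2 ≤
        3 * n * ∑ p : X × X × ι, c p.2.2 *
          (g (p.1, u p.2.2, p.2.1) - g (p.1, v p.2.2, p.2.1)) ^ 2 := by
      rw [sum_triple' (fun a b c => ∑ s, (g (a, b, c) - g (a, τ s b, c)) ^ 2)]
      simp only [Fintype.sum_prod_type]
      rw [Finset.mul_sum]
      refine Finset.sum_le_sum fun a _ => ?_
      rw [Finset.mul_sum]
      refine Finset.sum_le_sum fun c' _ => ?_
      exact hc (fun b => g (a, b, c'))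
    have h3 : ∑ x : X × X × X, ∑ s, (g x - g (x.1, x.2.1, τ s x.2.2)) ^ 2 ≤
        3 * n * ∑ p : X × X × ι, c p.2.2 *
          (g (p.1, p.2.1, u p.2.2) - g (p.1, p.2.1, v p.2.2)) ^ 2 := by
      rw [sum_triple'' (fun a b c => ∑ s, (g (a, b, c) - g (a, b, τ s c)) ^ 2)]
      simp only [Fintype.sum_prod_type]
      rw [Finset.mul_sum]
      refine Finset.sum_le_sum fun a _ => ?_
      rw [Finset.mul_sum]
      refine Finset.sum_le_sum fun b _ => ?_
      exact hc (fun c' => g (a, b, c'))
    have h4 : ∑ p : (X × X × X) × ZMod 3, 1 / (6 * n ^ 3) * (g p.1 - g (kap τ p.2 p.1)) ^ 2 =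
        1 / (6 * n ^ 3) * ∑ x, ∑ s, (g x - g (kap τ s x)) ^ 2 := by
      rw [← Finset.mul_sum, Fintype.sum_prod_type]
    rw [h4]
    simp only [mul_assoc]
    simp only [← Finset.mul_sum]
    rw [div_le_iff₀ (by positivity)]
    set S1 := ∑ p : X × X × ι, c p.2.2 *
          (g (u p.2.2, p.1, p.2.1) - g (v p.2.2, p.1, p.2.1)) ^ 2 with hS1
    set S2 := ∑ p : X × X × ι, c p.2.2 *
          (g (p.1, u p.2.2, p.2.1) - g (p.1, v p.2.2, p.2.1)) ^ 2 with hS2
    set S3 := ∑ p : X × X × ι, c p.2.2 *
          (g (p.1, p.2.1, u p.2.2) - g (p.1, p.2.1, v p.2.2)) ^ 2 with hS3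
    set S4 := ∑ x, ∑ s, (g x - g (kap τ s x)) ^ 2 with hS4
    have h5 : (1 / (2 * n ^ 2) * S1 + (1 / (2 * n ^ 2) * S2 + (1 / (2 * n ^ 2) * S3 +
        1 / (6 * n ^ 3) * S4))) * (3 * n ^ 3) =
        1 / 2 * (3 * n * S1 + 3 * n * S2 + 3 * n * S3) + 1 / 2 * S4 := by
      field_simp
      ring
    rw [h5]
    linarith
  · intro D α hα hD
    simp only [Fintype.sum_sum_type, Sum.elim_inl, Sum.elim_inr]
    have hr0 : (0 : ℝ) ≤ r := Nat.cast_nonneg r
    have h1 : ∑ p : X × X × ι, 1 / (2 * n ^ 2) * c p.2.2 *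
        D (u p.2.2, p.1, p.2.1) (v p.2.2, p.1, p.2.1) ≤ 1 / 2 * (3 * r * α * beta r k) := by
      have e1 : ∀ b c' : X, ∑ i, c i * D (u i, b, c') (v i, b, c') ≤ 3 * r * α * beta r k := by
        intro b c'
        refine cost (fun y z => D (y, b, c') (z, b, c')) _ (by positivity) ?_
        intro y z e he
        have := hD (y, b, c') (z, b, c') (3 * r * e) (fun s => close_fst τ_add he b c' s)
        push_cast at this
        linarith
      simp only [Fintype.sum_prod_type, mul_assoc]
      simp only [← Finset.mul_sum]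
      have e2 : ∑ b : X, ∑ c' : X, ∑ i, c i * D (u i, b, c') (v i, b, c') ≤
          n * (n * (3 * r * α * beta r k)) := by
        calc _ ≤ ∑ _b : X, ∑ _c : X, 3 * r * α * beta r k :=
              Finset.sum_le_sum fun b _ => Finset.sum_le_sum fun c' _ => e1 b c'
          _ = _ := by
            simp only [Finset.sum_const, Finset.card_univ, nsmul_eq_mul]
            rfl
      calc 1 / (2 * n ^ 2) * ∑ b : X, ∑ c' : X, ∑ i, c i * D (u i, b, c') (v i, b, c')
          ≤ 1 / (2 * n ^ 2) * (n * (n * (3 * r * α * beta r k))) :=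
            mul_le_mul_of_nonneg_left e2 (by positivity)
        _ = 1 / 2 * (3 * (r * (α * beta r k))) := by field_simp
    have h2 : ∑ p : X × X × ι, 1 / (2 * n ^ 2) * c p.2.2 *
        D (p.1, u p.2.2, p.2.1) (p.1, v p.2.2, p.2.1) ≤ 1 / 2 * (3 * r * α * beta r k) := by
      have e1 : ∀ b c' : X, ∑ i, c i * D (b, u i, c') (b, v i, c') ≤ 3 * r * α * beta r k := by
        intro b c'
        refine cost (fun y z => D (b, y, c') (b, z, c')) _ (by positivity) ?_
        intro y z e he
        have := hD (b, y, c') (b, z, c') (3 * r * e) (fun s => close_snd τ_add he b c' s)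
        push_cast at this
        linarith
      simp only [Fintype.sum_prod_type, mul_assoc]
      simp only [← Finset.mul_sum]
      have e2 : ∑ b : X, ∑ c' : X, ∑ i, c i * D (b, u i, c') (b, v i, c') ≤
          n * (n * (3 * r * α * beta r k)) := by
        calc _ ≤ ∑ _b : X, ∑ _c : X, 3 * r * α * beta r k :=
              Finset.sum_le_sum fun b _ => Finset.sum_le_sum fun c' _ => e1 b c'
          _ = _ := by
            simp only [Finset.sum_const, Finset.card_univ, nsmul_eq_mul]
            rfl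
      calc 1 / (2 * n ^ 2) * ∑ b : X, ∑ c' : X, ∑ i, c i * D (b, u i, c') (b, v i, c')
          ≤ 1 / (2 * n ^ 2) * (n * (n * (3 * r * α * beta r k))) :=
            mul_le_mul_of_nonneg_left e2 (by positivity)
        _ = 1 / 2 * (3 * (r * (α * beta r k))) := by field_simp
    have h3 : ∑ p : X × X × ι, 1 / (2 * n ^ 2) * c p.2.2 *
        D (p.1, p.2.1, u p.2.2) (p.1, p.2.1, v p.2.2) ≤ 1 / 2 * (3 * r * α * beta r k) := by
      have e1 : ∀ b c' : X, ∑ i, c i * D (b, c', u i) (b, c', v i) ≤ 3 * r * α * beta r k := by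
        intro b c'
        refine cost (fun y z => D (b, c', y) (b, c', z)) _ (by positivity) ?_
        intro y z e he
        have := hD (b, c', y) (b, c', z) (3 * r * e) (fun s => close_trd τ_add he b c' s)
        push_cast at this
        linarith
      simp only [Fintype.sum_prod_type, mul_assoc]
      simp only [← Finset.mul_sum]
      have e2 : ∑ b : X, ∑ c' : X, ∑ i, c i * D (b, c', u i) (b, c', v i) ≤
          n * (n * (3 * r * α * beta r k)) := by
        calc _ ≤ ∑ _b : X, ∑ _c : X, 3 * r * α * beta r k :=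
              Finset.sum_le_sum fun b _ => Finset.sum_le_sum fun c' _ => e1 b c'
          _ = _ := by
            simp only [Finset.sum_const, Finset.card_univ, nsmul_eq_mul]
            rfl
      calc 1 / (2 * n ^ 2) * ∑ b : X, ∑ c' : X, ∑ i, c i * D (b, c', u i) (b, c', v i)
          ≤ 1 / (2 * n ^ 2) * (n * (n * (3 * r * α * beta r k))) :=
            mul_le_mul_of_nonneg_left e2 (by positivity)
        _ = 1 / 2 * (3 * (r * (α * beta r k))) := by field_simp
    have h4 : ∑ p : (X × X × X) × ZMod 3, 1 / (6 * n ^ 3) * D p.1 (kap τ p.2 p.1) ≤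
        α * (11 * (33 * r) ^ k) := by
      have e1 : ∀ p : (X × X × X) × ZMod 3, 1 / (6 * n ^ 3) * D p.1 (kap τ p.2 p.1) ≤
          1 / (6 * n ^ 3) * (α * (22 * (33 * r) ^ k)) := by
        intro p
        refine mul_le_mul_of_nonneg_left ?_ (by positivity)
        have := hD p.1 (kap τ p.2 p.1) (22 * (33 * r) ^ k)
          (fun s => close_kap hr τ_zero τ_add length_w p.1 p.2 s)
        push_cast at this
        exact this
      refine (Finset.sum_le_sum fun p _ => e1 p).trans ?_
      rw [Finset.sum_const, Finset.card_univ, Fintype.card_prod, ZMod.card, nsmul_eq_mul]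
      push_cast
      rw [hcard]
      apply le_of_eq
      field_simp
      ring
    have h5 : α * beta r (k + 1) = 1 / 2 * (3 * r * α * beta r k) +
        (1 / 2 * (3 * r * α * beta r k) + (1 / 2 * (3 * r * α * beta r k) +
        α * (11 * (33 * r) ^ k))) := by
      rw [beta]
      ring
    rw [h5]
    exact add_le_add h1 (add_le_add h2 (add_le_add h3 h4))

theorem exists_lev {r : ℕ} (hr : 1 ≤ r) (k : ℕ) : Nonempty (Lev r k) := by
  induction k with
  | zero => exact lev_zero r
  | succ k ih => exact lev_succ hr ih.some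

end Vale.Agent.P238.X
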