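import Vale.Agent.P238.X.EDBasic

/-!
# P238: two words with a separator
-/

namespace Vale.Agent.P238.X

theorem filter_ne_self {s : ℕ} {l : List ℕ} (h : s ∉ l) :
    l.filter (fun a => decide (a ≠ s)) = l := by
  rw [List.filter_eq_self]
  intro a ha
  simp only [ne_eq, decide_eq_true_eq]
  rintro rfl
  exact h ha

theorem filter_ne_nil {s : ℕ} {l : List ℕ} (h : ∀ a ∈ l, a = s) :
    l.filter (fun a => decide (a ≠ s)) = [] := by
  rw [List.filter_eq_nil_iff]
  intro a ha
  simp [h a ha]

theorem mem_rep_left {h s : ℕ} {t t' : List ℕ} (e : List.replicate h s = t ++ t') :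
    ∀ a ∈ t, a = s := by
  intro a ha
  have : a ∈ List.replicate h s := by
    rw [e]
    exact List.mem_append_left _ ha
  exact List.eq_of_mem_replicate this

theorem mem_rep_right {h s : ℕ} {t t' : List ℕ} (e : List.replicate h s = t ++ t') :
    ∀ a ∈ t', a = s := by
  intro a ha
  have : a ∈ List.replicate h s := by
    rw [e]
    exact List.mem_append_right _ ha
  exact List.eq_of_mem_replicate this

theorem split_mid {h s : ℕ} {u w z1 z2 z3 : List ℕ}
    (e : u ++ (List.replicate h s ++ w) = z1 ++ (z2 ++ z3)) (hu : s ∉ u) (hw : s ∉ w)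
    (hz : s ∈ z2) :
    ∃ P S, u = z1.filter (fun a => decide (a ≠ s)) ++ P ∧
      w = S ++ z3.filter (fun a => decide (a ≠ s)) ∧
      z2.filter (fun a => decide (a ≠ s)) = P ++ S := by
  have h1 : ∃ P, u = z1.filter (fun a => decide (a ≠ s)) ++ P := by
    rcases List.append_eq_append_iff.1 e with ⟨t, ht1, ht2⟩ | ⟨t, ht1, ht2⟩
    · -- z1 = u ++ t, rep ++ w = t ++ (z2 ++ z3)
      rcases List.append_eq_append_iff.1 ht2 with ⟨t', h3, h4⟩ | ⟨t', h3, h4⟩
      · exfalso
        apply hw
        rw [h4]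
        exact List.mem_append_right _ (List.mem_append_left _ hz)
      · refine ⟨[], ?_⟩
        rw [ht1, List.filter_append, filter_ne_self hu, filter_ne_nil (mem_rep_left h3)]
        simp
    · -- u = z1 ++ t
      refine ⟨t, ?_⟩
      have : s ∉ z1 := fun hh => hu (by rw [ht1]; exact List.mem_append_left _ hh)
      rw [filter_ne_self this]
      exact ht1
  have h2 : ∃ S, w = S ++ z3.filter (fun a => decide (a ≠ s)) := by
    have e' : (u ++ List.replicate h s) ++ w = (z1 ++ z2) ++ z3 := by
      simpa [List.append_assoc] using e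
    rcases List.append_eq_append_iff.1 e' with ⟨t, ht1, ht2⟩ | ⟨t, ht1, ht2⟩
    · -- z1 ++ z2 = (u ++ rep) ++ t, w = t ++ z3
      refine ⟨t, ?_⟩
      have : s ∉ z3 := fun hh => hw (by rw [ht2]; exact List.mem_append_right _ hh)
      rw [filter_ne_self this]
      exact ht2
    · -- u ++ rep = (z1 ++ z2) ++ t, z3 = t ++ w
      rcases List.append_eq_append_iff.1 ht1 with ⟨t', h3, h4⟩ | ⟨t', h3, h4⟩
      · -- z1 ++ z2 = u ++ t', rep = t' ++ t
        refine ⟨[], ?_⟩
        rw [ht2, List.filter_append, filter_ne_self hw, filter_ne_nil (mem_rep_right h4)]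
        simp
      · exfalso
        apply hu
        rw [h3]
        exact List.mem_append_left _ (List.mem_append_right _ hz)
  obtain ⟨P, hP⟩ := h1
  obtain ⟨S, hS⟩ := h2
  refine ⟨P, S, hP, hS, ?_⟩
  have h5 : (u ++ (List.replicate h s ++ w)).filter (fun a => decide (a ≠ s)) = u ++ w := by
    rw [List.filter_append, List.filter_append, filter_ne_self hu, filter_ne_self hw,
      filter_ne_nil (fun a ha => List.eq_of_mem_replicate ha)]
    simp
  rw [e, List.filter_append, List.filter_append] at h5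
  have h6 : z1.filter (fun a => decide (a ≠ s)) ++ (z2.filter (fun a => decide (a ≠ s)) ++
      z3.filter (fun a => decide (a ≠ s))) = z1.filter (fun a => decide (a ≠ s)) ++
      ((P ++ S) ++ z3.filter (fun a => decide (a ≠ s))) := by
    rw [h5]
    conv_lhs => rw [hP, hS]
    simp [List.append_assoc]
  exact List.append_cancel_right (List.append_cancel_left h6)

theorem ED_pair {h s : ℕ} {u u' w w' : List ℕ} (hu : s ∉ u) (hu' : s ∉ u') (hw : s ∉ w)
    (hw' : s ∉ w') :
    min h (ED u u' + ED w w') ≤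
      ED (u ++ (List.replicate h s ++ w)) (u' ++ (List.replicate h s ++ w')) := by
  obtain ⟨z1, z4, hz, hle⟩ := ED_split u (List.replicate h s ++ w)
    (u' ++ (List.replicate h s ++ w'))
  obtain ⟨z2, z3, hz', hle'⟩ := ED_split (List.replicate h s) w z4
  by_cases hs : s ∈ z2
  · rw [hz'] at hz
    obtain ⟨P, S, hP, hS, hPS⟩ := split_mid hz hu' hw' hs
    have h1 := ED_filter_le hu z1
    have h2 := ED_filter_le hw z3
    have h3 := ED_replicate_ne h s z2
    have h4 := ED_insert_le u [] (z1.filter (fun a => decide (a ≠ s))) P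
    have h5 := ED_insert_le w S (z3.filter (fun a => decide (a ≠ s))) []
    rw [List.nil_append, List.length_nil, ← hP] at h4
    rw [List.append_nil, List.length_nil, ← hS] at h5
    rw [hPS, List.length_append] at h3
    apply min_le_of_right_le
    omega
  · have h1 := ED_replicate_count h s z2
    rw [List.count_eq_zero.2 hs] at h1
    apply min_le_of_left_le
    omega

/-- three words with two separators -/
theorem ED_core {k h : ℕ} {u u' v v' w w' : List ℕ}
    (hu : ∀ a ∈ u, a < 3 + 3 * k) (hu' : ∀ a ∈ u', a < 3 + 3 * k)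
    (hv : ∀ a ∈ v, a < 3 + 3 * k) (hv' : ∀ a ∈ v', a < 3 + 3 * k)
    (hw : ∀ a ∈ w, a < 3 + 3 * k) (hw' : ∀ a ∈ w', a < 3 + 3 * k) :
    min h (ED u u' + ED v v' + ED w w') ≤ ED (core k h u v w) (core k h u' v' w') := by
  have n1 : ∀ l : List ℕ, (∀ a ∈ l, a < 3 + 3 * k) → 3 + 3 * k ∉ l := fun l hl hh =>
    absurd (hl _ hh) (lt_irrefl _)
  have n2 : ∀ l : List ℕ, (∀ a ∈ l, a < 3 + 3 * k) → 4 + 3 * k ∉ l := fun l hl hh =>
    absurd (hl _ hh) (by omega)
  have n3 : ∀ l l' : List ℕ, (∀ a ∈ l, a < 3 + 3 * k) → (∀ a ∈ l', a < 3 + 3 * k) →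
      3 + 3 * k ∉ l ++ (List.replicate h (4 + 3 * k) ++ l') := by
    intro l l' hl hl' hh
    rcases List.mem_append.1 hh with hh | hh
    · exact n1 l hl hh
    · rcases List.mem_append.1 hh with hh | hh
      · have := List.eq_of_mem_replicate hh
        omega
      · exact n1 l' hl' hh
  have h1 := ED_pair (h := h) (n1 u hu) (n1 u' hu') (n3 v w hv hw) (n3 v' w' hv' hw')
  have h2 := ED_pair (h := h) (n2 v hv) (n2 v' hv') (n2 w hw) (n2 w' hw')
  unfold core
  omega

end Vale.Agent.P238.X
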